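import Vale.Agent.P166.NW.Chain.Exchange
import Vale.Agent.P157.Parisi.Upper.Discrete

/-!
All slots exchanged: the pressure is below the site value plus the bound on the gain of a slot.
-/

noncomputable section

open MeasureTheory ProbabilityTheory Filter
open scoped BigOperators Topology

namespace Vale.Agent.P166.NW

open Vale.Agent.P157 Vale.Agent.P157.Parisi Vale.Agent.P157.Parisi.Up
open Vale.Agent.P168 (genNested)
open Vale.Agent.P168.Cascade (Exps Bdd)
open Vale.Agent.P168.Upper (integral_mp genNested_map genNested_one genNested_const_mul)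

variable {r N j k : ℕ} {f : ℝ → ℝ} {A δ a ε : ℝ} {ρ : Fin (r + 1) → ℝ} {m : Fin r → ℝ}

lemma Phi_const {β : Type} [MeasurableSpace β] (ν : Measure β) [IsProbabilityMeasure ν]
    (hm : ∀ i, 0 < m i) {c : Cube N → ℝ} (hc : ∀ σ, 0 ≤ c σ) :
    Up.Phi ν m (fun σ (_ : Fin r → β) => c σ) = Real.log (∑ σ, c σ) := by
  have h := genNested_const_mul ν (Finset.sum_nonneg (s := Finset.univ) fun σ _ => hc σ) m hm (fun _ => 1)
    fun _ => zero_le_one
  simp only [mul_one, genNested_one ν m hm] at h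
  exact congrArg Real.log h

lemma measurable_logSlot (hs : Smooth f A) (c : Cube N → ℝ) :
    Measurable fun p : (Fin j → Bool) × (Fin j → Fin N → ℝ) =>
      Real.log (∑ σ, c σ * Real.exp (slotH f p σ)) :=
  (Finset.measurable_sum _ fun σ _ => ((measurable_slotH hs σ).exp).const_mul (c σ)).log

lemma abs_logSlot_le (hs : Smooth f A) {c : Cube N → ℝ} (hc : ∀ σ, 0 < c σ)
    (p : (Fin j → Bool) × (Fin j → Fin N → ℝ)) :
    |Real.log (∑ σ, c σ * Real.exp (slotH f p σ))| ≤ |Real.log (∑ σ, c σ)| + j * A := by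
  have hS : 0 < ∑ σ, c σ := Finset.sum_pos (fun σ _ => hc σ) Finset.univ_nonempty
  have hP : 0 < ∑ σ, c σ * Real.exp (slotH f p σ) :=
    Finset.sum_pos (fun σ _ => mul_pos (hc σ) (Real.exp_pos _)) Finset.univ_nonempty
  have h1 : (∑ σ, c σ) * Real.exp (-(j * A)) ≤ ∑ σ, c σ * Real.exp (slotH f p σ) := by
    rw [Finset.sum_mul]
    exact Finset.sum_le_sum fun σ _ => mul_le_mul_of_nonneg_left
      (Real.exp_le_exp.2 (abs_le.1 (abs_slotH_le hs p σ)).1) (hc σ).le
  have h2 : ∑ σ, c σ * Real.exp (slotH f p σ) ≤ (∑ σ, c σ) * Real.exp (j * A) := by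
    rw [Finset.sum_mul]
    exact Finset.sum_le_sum fun σ _ => mul_le_mul_of_nonneg_left
      (Real.exp_le_exp.2 (abs_le.1 (abs_slotH_le hs p σ)).2) (hc σ).le
  have l1 := Real.log_le_log (mul_pos hS (Real.exp_pos _)) h1
  have l2 := Real.log_le_log hP h2
  rw [Real.log_mul hS.ne' (Real.exp_pos _).ne', Real.log_exp] at l1 l2
  rw [abs_le]
  constructor <;> linarith [neg_abs_le (Real.log (∑ σ, c σ)), le_abs_self (Real.log (∑ σ, c σ))]

/-- The recursion of the slots on weights without marks, unrolled. -/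
lemma slots_eq_integral (hs : Smooth f A) (hm : ∀ i, 0 < m i) (h0 : 0 ≤ ε) (h1 : ε ≤ 1) :
    ∀ (j : ℕ) (c : Cube N → ℝ), (∀ σ, 0 < c σ) →
      slots ε f (Measure.dirac ()) m j (fun σ (_ : Fin r → Unit) => c σ) =
        ∫ p, Real.log (∑ σ, c σ * Real.exp (slotH f p σ)) ∂patLaw N j ε
  | 0, c, hc => by
    have := isProb_bern h0 h1
    simp only [slots, Phi_const (Measure.dirac ()) hm (fun σ => (hc σ).le), slotH,
      Finset.univ_eq_empty, Finset.sum_empty, Real.exp_zero, mul_one, integral_const, probReal_univ,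
      one_smul]
  | j + 1, c, hc => by
    have := isProb_bern h0 h1
    have ih := slots_eq_integral hs hm h0 h1 j
    rw [integral_pat_succ h0 h1 (measurable_logSlot hs c) (abs_logSlot_le hs hc)]
    have e : ∀ g : Fin N → ℝ,
        slots ε f (Measure.dirac ()) m j (fun σ (_ : Fin r → Unit) => c σ * patU f g σ) =
          ∫ p, Real.log (∑ σ, c σ * Real.exp (slotH f
            ((Fin.cons true p.1 : Fin (j + 1) → Bool), Fin.cons g p.2) σ)) ∂patLaw N j ε := fun g => by
      rw [ih (fun σ => c σ * patU f g σ) fun σ => mul_pos (hc σ) (Real.exp_pos _)]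
      simp only [slotH_cons, if_true, Real.exp_add, patU, mul_assoc]
    simp only [slots, e, ih c hc]
    congr 1
    · refine congrArg _ (integral_integral_swap (integrable_bdd
        (C := |Real.log (∑ σ, c σ)| + (j + 1 : ℕ) * A) ?_ fun z => abs_logSlot_le hs hc _))
      exact (measurable_logSlot hs c).comp (f := fun z : (Fin N → ℝ) ×
          ((Fin j → Bool) × (Fin j → Fin N → ℝ)) =>
        ((Fin.cons true z.2.1 : Fin (j + 1) → Bool), (Fin.cons z.1 z.2.2 : Fin (j + 1) → Fin N → ℝ)))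
        (((mp_cons (bern ε) j).measurable.comp (measurable_const.prodMk measurable_snd.fst)).prodMk
          ((mp_cons (gam (Fin N)) j).measurable.comp (measurable_fst.prodMk measurable_snd.snd)))
    · refine congrArg _ (integral_congr_ae (Eventually.of_forall fun p => ?_))
      simp [slotH_cons]

variable {x : Fin N → ℝ}

lemma slotV_bounds (hs : Smooth f A) (ha : 0 ≤ a) (hm : Exps m) (hN : 0 < N) (h0 : 0 ≤ ε)
    (h1 : ε ≤ 1) (hx : ∀ i, |x i| ≤ 3) :
    |slotV m f ε δ a ρ N j k x - ∫ d, Up.Phi (slotMarks N k) m (slotW f δ a ρ d) ∂slotLaw N j k ε| ≤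
      pertErr N := by
  have := isProb_slotLaw (N := N) (j := j) (k := k) h0 h1
  refine Vale.Agent.P168.Limit.SelfAvg.abs_integral_sub_le
    (integrable_bdd (measurable_pertPhi (measW_slotW hs δ a ρ) x)
      fun d => abs_slotPhi_le hs ha hm hN hx d)
    (integrable_bdd (measurable_Phi _ m (measW_slotW hs δ a ρ))
      fun d => abs_Phi_le' _ hm (wbdd_slotW hs ha ρ d))
    fun d => abs_pertPhi_sub_le hm hN (measW_slotW hs δ a ρ) (wbdd_slotW hs ha ρ) hx d

/-- All slots carrying patterns. -/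
lemma slotV_patterns (hs : Smooth f A) (hm : Exps m) (h0 : 0 ≤ ε) (h1 : ε ≤ 1) (L : ℕ) :
    ∫ d, Up.Phi (slotMarks N 0) m (slotW f δ a ρ d) ∂slotLaw N L 0 ε =
      slots ε f (Measure.dirac ()) m L
        (fun (_ : Cube N) (_ : Fin r → Unit) => ((2 : ℝ) ^ N)⁻¹) := by
  have := isProb_bern h0 h1
  rw [slots_eq_integral hs hm.pos h0 h1 L _ fun σ => by positivity]
  have e : ∀ d : SlotDis N L 0, Up.Phi (slotMarks N 0) m (slotW f δ a ρ d) =
      Real.log (∑ σ, ((2 : ℝ) ^ N)⁻¹ * Real.exp (slotH f d.1 σ)) := fun d => by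
    rw [← Phi_const (slotMarks N 0) hm.pos fun σ => by positivity]
    congr 1
    funext σ η
    simp [slotW_eq, fieldsW]
  simp only [e]
  refine (integral_fun_fst (fun p : (Fin L → Bool) × (Fin L → Fin N → ℝ) =>
    Real.log (∑ σ, ((2 : ℝ) ^ N)⁻¹ * Real.exp (slotH f p σ)))).trans ?_
  simp

/-- All slots carrying fields. -/
lemma slotV_fields (ha : 0 ≤ a) (hm : Exps m) (h0 : 0 ≤ ε) (h1 : ε ≤ 1) (L : ℕ) :
    ∫ d, Up.Phi (slotMarks N L) m (slotW (f := f) (δ := δ) (a := a) (ρ := ρ) d) ∂slotLaw N 0 L ε =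
      fields δ a m ρ L Unit (Measure.dirac ()) (unifW N) := by
  have := isProb_bern h0 h1
  rw [fields_eq ha hm ρ L Unit (Measure.dirac ()) _ _ (wbdd_unifW N)]
  set T : (Fin L → Fin N → ℝ) → Cube N → (Fin r → Fin L → Fin N → ℝ) → ℝ :=
    fun E σ η => ((2 : ℝ) ^ N)⁻¹ * fieldsW δ a ρ E σ η
  have e : ∀ d : SlotDis N 0 L, Up.Phi (slotMarks N L) m (slotW f δ a ρ d) =
      Up.Phi (slotMarks N L) m (T d.2) := fun d => by
    congr 1
    funext σ η
    simp [T, slotW_eq, slotH]
  have e2 : ∀ E, Up.Phi ((Measure.dirac ()).prod (slotMarks N L)) m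
      (tens (unifW N) (fieldsW δ a ρ E)) = Up.Phi (slotMarks N L) m (T E) := fun E => by
    refine congrArg Real.log ?_
    refine (genNested_map ((Measure.dirac ()).prod (slotMarks N L)) (slotMarks N L)
      measurePreserving_snd m (fun η => ∑ σ, T E σ η) ?_)
    refine Finset.measurable_sum _ fun σ _ => Measurable.const_mul ?_ _
    exact Measurable.comp (g := fun q : (Fin L → Fin N → ℝ) × (Fin r → Fin L → Fin N → ℝ) =>
      fieldsW δ a ρ q.1 σ q.2) (f := fun η => (E, η)) (measurable_fieldsW δ a ρ σ)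
      (measurable_const.prodMk measurable_id)
  simp only [e, e2]
  refine (integral_fun_snd (fun E => Up.Phi (slotMarks N L) m (T E))).trans ?_
  simp

lemma measurable_slotV (hs : Smooth f A) (h0 : 0 ≤ ε) (h1 : ε ≤ 1) :
    Measurable fun x : Fin N → ℝ => slotV m f ε δ a ρ N j k x := by
  have := isProb_slotLaw (N := N) (j := j) (k := k) h0 h1
  have h : Measurable fun z : ((Fin N → ℝ) × SlotDis N j k) × (PertIdx N N → ℝ) =>
      Up.Phi (slotMarks N k) m (pertW (slotW f δ a ρ) (scale N) z.1.1 (z.1.2, z.2)) :=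
    (measurable_Phi (slotMarks N k) m (measW_pertW (measW_slotW hs δ a ρ) (scale N))).comp
      (f := fun z : ((Fin N → ℝ) × SlotDis N j k) × (PertIdx N N → ℝ) => (z.1.1, (z.1.2, z.2)))
      (measurable_fst.fst.prodMk (measurable_fst.snd.prodMk measurable_snd))
  have h2 : Measurable fun z : (Fin N → ℝ) × SlotDis N j k =>
      slotPhi m f δ a ρ z.1 z.2 :=
    (h.stronglyMeasurable.integral_prod_right' (ν := gam (PertIdx N N))).measurable
  exact (h2.stronglyMeasurable.integral_prod_right' (ν := slotLaw N j k ε)).measurable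

lemma ae_x (N : ℕ) : ∀ᵐ x ∂xLaw N, ∀ i, |x i| ≤ (3 : ℝ) :=
  (Main.ae_xLaw N).mono fun _ hx i => abs_le.2 ⟨by linarith [(hx i).1], by linarith [(hx i).2]⟩

lemma integrable_slotV (hs : Smooth f A) (ha : 0 ≤ a) (hm : Exps m) (hN : 0 < N) (h0 : 0 ≤ ε)
    (h1 : ε ≤ 1) : Integrable (slotV m f ε δ a ρ N j k) (xLaw N) := by
  have := isProb_slotLaw (N := N) (j := j) (k := k) h0 h1
  refine Integrable.of_bound (measurable_slotV hs h0 h1).aestronglyMeasurable
    (slotK A δ a ρ N j k + pertErr N) ((ae_x N).mono fun x hx => ?_)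
  exact (norm_integral_le_of_norm_le_const (Eventually.of_forall fun d =>
    (Real.norm_eq_abs _).trans_le (abs_slotPhi_le hs ha hm hN hx d))).trans_eq
      (by simp [slotK])

/-- One exchange, averaged over the perturbation parameters. -/
lemma slotV_step (hs : Smooth f A) (ha : 0 ≤ a) (hm : Exps m) (hN : 0 < N) (h0 : 0 ≤ ε)
    (h1 : ε ≤ 1) {s : Fin (r + 1) → ℝ} (hmono : Monotone s) (hs0 : 0 ≤ s 0) {α : ℝ} (hα : 0 ≤ α)
    (hδ : 0 ≤ δ) (hεδ : ε = α * N * δ) (hM : fieldM δ a N (fun p => α * s p) ≤ 1 / 10) :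
    ∫ x, slotV m f ε δ a (fun p => α * s p) N (j + 1) k x ∂xLaw N ≤
      ∫ x, slotV m f ε δ a (fun p => α * s p) N j (k + 1) x ∂xLaw N +
        (ε * (slotGain (N := N) (j := j) (k := k) m f ε δ a (fun p => α * s p) s -
          1 / 2 * s (Fin.last r) + (1 - svar a) * s (Fin.last r)) +
          20 * fieldM δ a N (fun p => α * s p) ^ 3) := by
  have := isProb_slotLaw (N := N) (j := j) (k := k) h0 h1
  set ρ := fun p => α * s p
  set M3 := 20 * fieldM δ a N ρ ^ 3
  set sr := s (Fin.last r)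
  set g : (Fin N → ℝ) → ℝ := fun x =>
    ∫ e, (patInc (slotMarks N k) m f (pertW (slotW (j := j) f δ a ρ) (scale N) x e) +
      1 / 2 * fieldPair (slotMarks N k) m s (pertW (slotW f δ a ρ) (scale N) x e))
      ∂famLaw (slotLaw N j k ε) N N
  have hfam : IsProbabilityMeasure (famLaw (slotLaw N j k ε) N N) := by
    unfold famLaw; infer_instance
  have hW := measW_pertW (N := N) (L := N) (measW_slotW (j := j) (k := k) hs δ a ρ) (scale N)
  have hgm : Measurable g := by
    have h1' : Measurable fun z : (Fin N → ℝ) × (SlotDis N j k × (PertIdx N N → ℝ)) =>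
        patInc (slotMarks N k) m f (pertW (slotW f δ a ρ) (scale N) z.1 z.2) :=
      (((measurable_Phi (slotMarks N k) m (measW_patU hs hW)).sub
        ((measurable_Phi (slotMarks N k) m hW).comp
          measurable_fst)).stronglyMeasurable.integral_prod_right' (ν := gam (Fin N))).measurable
    exact ((h1'.add ((measurable_fieldPair (slotMarks N k) s hW).const_mul
      (1 / 2))).stronglyMeasurable.integral_prod_right').measurable
  have hgi : Integrable g (xLaw N) :=
    integrable_bdd (C := A + sr) hgm fun x => by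
      refine (Real.norm_eq_abs (g x)).symm.trans_le ((norm_integral_le_of_norm_le_const
        (C := A + sr) (Eventually.of_forall fun e => ?_)).trans_eq (by simp))
      have hb1 := abs_patInc_le (slotMarks N k) hm hs
        (wbdd_pertW hN (wbdd_slotW (δ := δ) hs ha ρ) x e)
      have hb2 := abs_fieldPair_le (slotMarks N k) hm hmono hs0
        (wbdd_pertW hN (wbdd_slotW (δ := δ) hs ha ρ) x e)
      rw [Real.norm_eq_abs, abs_le]
      constructor <;> linarith [(abs_le.1 hb1).1, (abs_le.1 hb1).2, (abs_le.1 hb2).1,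
        (abs_le.1 hb2).2]
  have hpt : ∀ᵐ x ∂xLaw N, slotV m f ε δ a ρ N (j + 1) k x ≤
      slotV m f ε δ a ρ N j (k + 1) x +
        (ε * (g x - 1 / 2 * sr + (1 - svar a) * sr) + M3) := by
    filter_upwards [ae_x N] with x hx
    have e1 := slotV_succ_pat (j := j) (k := k) (δ := δ) (ρ := ρ) hs ha hm hN h0 h1 hx
    have e2 := slotV_succ_field (j := j) (k := k) hs ha hm hN h0 h1 hx hmono hs0 hα hδ hεδ hM
    have hi1 := integrable_patInc (δ := δ) (ρ := ρ) hs ha hm hN x (famLaw (slotLaw N j k ε) N N)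
    have hi2 := integrable_fieldPair (δ := δ) (ρ := ρ) hs ha hm hN x hmono hs0
      (famLaw (slotLaw N j k ε) N N)
    set F := ∫ e, fieldPair (slotMarks N k) m s (pertW (slotW (j := j) f δ a ρ) (scale N) x e)
      ∂famLaw (slotLaw N j k ε) N N
    have hF : |F| ≤ sr := by
      refine (Real.norm_eq_abs F).symm.trans_le ((norm_integral_le_of_norm_le_const (C := sr)
        (Eventually.of_forall fun e => ?_)).trans_eq (by simp))
      exact (Real.norm_eq_abs _).trans_le (abs_fieldPair_le _ hm hmono hs0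
        (wbdd_pertW hN (wbdd_slotW hs ha ρ) x e))
    have hg : g x = (∫ e, patInc (slotMarks N k) m f (pertW (slotW f δ a ρ) (scale N) x e)
        ∂famLaw (slotLaw N j k ε) N N) + 1 / 2 * F := by
      simp only [g, F]
      rw [integral_add hi1 (hi2.const_mul _), integral_const_mul]
    have h3 := mul_le_mul_of_nonneg_left (mul_le_mul_of_nonneg_left (abs_le.1 hF).1
      (sub_nonneg.2 (svar_le_one ha))) h0
    rw [hg]
    nlinarith
  have hd : Integrable (fun x => g x - 1 / 2 * sr + (1 - svar a) * sr) (xLaw N) :=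
    (hgi.sub (integrable_const (1 / 2 * sr))).add (integrable_const _)
  have hde : Integrable (fun x => ε * (g x - 1 / 2 * sr + (1 - svar a) * sr) + M3) (xLaw N) :=
    (hd.const_mul ε).add (integrable_const M3)
  have hd0 : Integrable (fun x => g x - 1 / 2 * sr) (xLaw N) := hgi.sub (integrable_const _)
  refine (integral_mono_ae (integrable_slotV hs ha hm hN h0 h1)
    ((integrable_slotV hs ha hm hN h0 h1).add hde) hpt).trans_eq ?_
  simp only [Pi.add_apply]
  rw [integral_add (integrable_slotV hs ha hm hN h0 h1) hde,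
    integral_add (hd.const_mul ε) (integrable_const M3), integral_const_mul,
    integral_add hd0 (integrable_const _), integral_sub hgi (integrable_const _)]
  simp only [integral_const, probReal_univ, one_smul]
  rfl

/-- Exchanging all slots. -/
theorem chain : ChainStmt := by
  intro α A f hα hs ξ s hmono hs0 B hgain η hη
  have hm : Exps ξ.m := ⟨ξ.isPath.pos, ξ.isPath.lt_one, ξ.isPath.strictMono⟩
  set sr := s (Fin.last ξ.r)
  set ρ : Fin (ξ.r + 1) → ℝ := fun p => α * s p
  have h1 : Tendsto (fun n : ℕ => α * (1 - svar n) * sr) atTop (𝓝 0) := by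
    simpa using (((tendsto_const_nhds (x := (1 : ℝ))).sub tendsto_svar).const_mul α).mul_const sr
  obtain ⟨n, hn⟩ := (h1.eventually (eventually_le_nhds (by positivity : (0 : ℝ) < η / 5))).exists
  set a : ℝ := (n : ℝ)
  have ha : 0 ≤ a := Nat.cast_nonneg n
  have hN1 : Tendsto (fun N : ℕ => A * (Real.sqrt α / Real.sqrt N + 1 / N)) atTop (𝓝 0) := by
    have h := (tendsto_const_nhds (x := Real.sqrt α)).div_atTop
      (Real.tendsto_sqrt_atTop.comp (tendsto_natCast_atTop_atTop (R := ℝ)))
    simpa [Function.comp_def] using (h.add tendsto_one_div_atTop_nhds_zero_nat).const_mul A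
  filter_upwards [hgain n (η / (5 * α)) (by positivity),
    hN1.eventually (eventually_le_nhds (by positivity : (0 : ℝ) < η / 5)),
    (tendsto_pertErr.const_mul 2).eventually
      (eventually_le_nhds (by rw [mul_zero]; positivity : (2 : ℝ) * 0 < η / 5)),
    eventually_gt_atTop 0] with N hgN hNe hNp hN
  have hN0 : (0 : ℝ) < N := Nat.cast_pos.2 hN
  set K : ℝ := N * (fieldLen ρ * a)
  have hs0' : Tendsto (fun L : ℕ => Real.sqrt (1 / (L : ℝ))) atTop (𝓝 0) := by
    simpa using tendsto_one_div_atTop_nhds_zero_nat.sqrt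
  obtain ⟨L, hL, hprob, hsmall, herr⟩ :
      ∃ L : ℕ, 0 < L ∧ α * N / L ≤ 1 ∧ Real.sqrt (1 / (L : ℝ)) * K ≤ 1 / 10 ∧
        20 * (Real.sqrt (1 / (L : ℝ)) * K ^ 3) ≤ N * (η / 5) := by
    have h1 := (tendsto_const_div_atTop_nhds_zero_nat (α * N)).eventually
      (eventually_le_nhds one_pos)
    have h2 := (hs0'.mul_const K).eventually
      (eventually_le_nhds (by norm_num : (0 : ℝ) * K < 1 / 10))
    have h3 := ((hs0'.mul_const (K ^ 3)).const_mul 20).eventually
      (eventually_le_nhds (by simp; positivity : (20 : ℝ) * (0 * K ^ 3) < N * (η / 5)))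
    obtain ⟨L, hL, a1, a2, a3⟩ := ((eventually_gt_atTop 0).and (h1.and (h2.and h3))).exists
    exact ⟨L, hL, a1, a2, a3⟩
  have hL0 : (0 : ℝ) < L := Nat.cast_pos.2 hL
  set δ := 1 / (L : ℝ)
  set ε := α * N / L
  have hε0 : 0 ≤ ε := by positivity
  have hδ : 0 ≤ δ := by positivity
  have hεδ : ε = α * N * δ := by simp [ε, δ, div_eq_mul_inv]
  set V : ℕ → ℕ → ℝ := fun j k => ∫ x, slotV ξ.m f ε δ a ρ N j k x ∂xLaw N
  set Cst := ε * (B + η / (5 * α) - 1 / 2 * sr + (1 - svar a) * sr) + 20 * fieldM δ a N ρ ^ 3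
  have hchain : ∀ j k, j + k = L → V j k ≤ V 0 L + j * Cst := by
    intro j
    induction j with
    | zero => intro k hk; simp [show k = L by omega]
    | succ j ih =>
      intro k hk
      have hp : SlotParams α a ξ.r N L fun p => α * s p := ⟨hN, hL, hprob, hsmall⟩
      have hg := hgN j k L (by omega) hp
      have hst := slotV_step (j := j) (k := k) hs ha hm hN hε0 hprob hmono hs0 hα.le hδ hεδ hsmall
      have := ih (k + 1) (by omega)
      have h2 := mul_le_mul_of_nonneg_left hg hε0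
      simp only [V, Cst, ρ, ε, δ, sr, a] at *
      push_cast
      nlinarith
  have hVL := hchain L 0 (add_zero L)
  -- the two ends
  have hend : ∀ (j k : ℕ) (c : ℝ),
      (∫ d, Up.Phi (slotMarks N k) ξ.m (slotW f δ a ρ d) ∂slotLaw N j k ε) = c →
      |V j k - c| ≤ pertErr N := fun j k c hc => by
    have := isProb_slotLaw (N := N) (j := j) (k := k) hε0 hprob
    have he : ∫ x, slotV ξ.m f ε δ a ρ N j k x ∂xLaw N - c =
        ∫ x, (slotV ξ.m f ε δ a ρ N j k x - c) ∂xLaw N := by
      rw [integral_sub (integrable_slotV hs ha hm hN hε0 hprob) (integrable_const _)]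
      simp
    simp only [V, he, ← Real.norm_eq_abs]
    refine (norm_integral_le_of_norm_le_const (C := pertErr N) ((ae_x N).mono fun x hx => ?_)).trans_eq
      (by simp)
    rw [Real.norm_eq_abs, ← hc]
    exact slotV_bounds hs ha hm hN hε0 hprob hx
  have eL := abs_le.1 (hend L 0 _ (slotV_patterns hs hm hε0 hprob L))
  have e0 := abs_le.1 (hend 0 L _ (slotV_fields ha hm hε0 hprob L))
  have s1 : (N : ℝ) * meanPressure isingLaw α f N ≤
      slots (α * N / L) f (Measure.dirac ()) ξ.m L
          (fun (_ : Cube N) (_ : Fin ξ.r → Unit) => ((2 : ℝ) ^ N)⁻¹) +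
        A * (Real.sqrt (α * N) + 1) := slots_init hs hm hα.le hN hL hprob
  have s3 := fields_unif_le (N := N) ha hm ρ hL
  have hcube : (L : ℝ) * (20 * fieldM δ a N ρ ^ 3) = 20 * (Real.sqrt δ * K ^ 3) := by
    have hsq : Real.sqrt δ * Real.sqrt δ = δ := Real.mul_self_sqrt hδ
    calc (L : ℝ) * (20 * fieldM δ a N ρ ^ 3)
        = 20 * ((L * (Real.sqrt δ * Real.sqrt δ)) * (Real.sqrt δ * K ^ 3)) := by
          simp only [fieldM, K]; ring
      _ = _ := by rw [hsq, mul_one_div_cancel hL0.ne', one_mul]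
  have hC : (L : ℝ) * Cst = N * (α * B + η / 5 - α / 2 * sr + α * (1 - svar a) * sr) +
      20 * (Real.sqrt δ * K ^ 3) := by
    rw [← hcube]
    simp only [Cst, ε]
    field_simp
  have herrN : A * (Real.sqrt (α * N) + 1) ≤ N * (η / 5) := by
    refine le_trans (le_of_eq ?_) (mul_le_mul_of_nonneg_left hNe hN0.le)
    calc A * (Real.sqrt (α * N) + 1)
        = A * (Real.sqrt α * ((N : ℝ) / Real.sqrt N) + (N : ℝ) / N) := by
          rw [Real.sqrt_mul hα.le, Real.div_sqrt, div_self hN0.ne']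
      _ = _ := by ring
  have hpN : 2 * pertErr N ≤ N * (η / 5) := by
    have := mul_le_mul_of_nonneg_left hNp hN0.le
    rwa [show (N : ℝ) * (2 * (pertErr N / N)) = 2 * pertErr N by field_simp] at this
  have hvar := mul_le_mul_of_nonneg_left hn hN0.le
  refine le_of_mul_le_mul_left ?_ hN0
  have hρr : ρ (Fin.last ξ.r) = α * sr := rfl
  rw [hρr] at s3
  rw [hC] at hVL
  nlinarith

end Vale.Agent.P166.NW
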