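import Vale.Agent.P166.NW.Chain.Slot

/-!
Self-averaging of the slot family: Efron–Stein in the coins, the patterns and the coordinates of
the fields, the perturbation being averaged.
-/

noncomputable section

open MeasureTheory ProbabilityTheory Filter
open scoped BigOperators Topology

namespace Vale.Agent.P166.NW

open Vale.Agent.P157 Vale.Agent.P157.Parisi Vale.Agent.P157.Parisi.Up
open Vale.Agent.P168.Cascade (Exps Bdd)
open Vale.Agent.P168.Upper (integral_mp mp_uncurry)
open Vale.Agent.P168.Toolkit (efronStein)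
open Vale.Agent.P168.Limit.SelfAvg (variance_prod_le abs_integral_sub_le)

variable {r N j k : ℕ}

lemma abs_clipA_sub_le (a x y : ℝ) : |clipA a x - clipA a y| ≤ |x - y| := by
  simp only [clipA]
  have h1 := abs_max_sub_max_le_max (-a) (min a x) (-a) (min a y)
  have h2 := abs_min_sub_min_le_max a x a y
  simp only [sub_self, abs_zero] at h1 h2
  exact h1.trans (max_le (abs_nonneg _) (h2.trans (max_le (abs_nonneg _) le_rfl)))

lemma abs_fieldsW_arg_sub_le (δ a : ℝ) (ρ : Fin (r + 1) → ℝ) (z : Fin k × Fin N → ℝ)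
    (q : Fin k × Fin N) (y : ℝ) (σ : Cube N) (η : Fin r → Fin k → Fin N → ℝ) :
    |(∑ b, fieldX δ a ρ (fun i => z (b, i)) σ fun p => η p b) -
        ∑ b, fieldX δ a ρ (fun i => Function.update z q y (b, i)) σ fun p => η p b| ≤
      Real.sqrt δ * Real.sqrt (ρ 0) * |z q - y| := by
  obtain ⟨b₀, i₀⟩ := q
  simp only [fieldX, pathField, ← Finset.sum_sub_distrib, ← mul_sub, add_sub_add_right_eq_sub]
  rw [Fintype.sum_eq_single b₀ fun b hb => by simp [Function.update_of_ne, hb],
    Fintype.sum_eq_single i₀ fun i hi => by simp [Function.update_of_ne, hi],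
    Function.update_self, abs_mul, abs_mul, abs_mul, abs_sv_eq, one_mul,
    abs_of_nonneg (Real.sqrt_nonneg _), abs_of_nonneg (Real.sqrt_nonneg _), mul_assoc]
  exact mul_le_mul_of_nonneg_left (mul_le_mul_of_nonneg_left (abs_clipA_sub_le a _ _)
    (Real.sqrt_nonneg _)) (Real.sqrt_nonneg _)

lemma integral_gauss_sq_sub :
    ∫ x, ∫ y, (x - y) ^ 2 ∂gaussianReal 0 1 ∂gaussianReal 0 1 = 2 := by
  have i1 : Integrable (fun x : ℝ => x) (gaussianReal 0 1) :=
    Vale.Agent.P168.Toolkit.integrable_gauss_id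
  have i2 : Integrable (fun x : ℝ => x ^ 2) (gaussianReal 0 1) :=
    Vale.Agent.P168.Toolkit.integrable_gauss_sq
  have e1 : ∫ x : ℝ, x ∂gaussianReal 0 1 = 0 := Vale.Agent.P168.Toolkit.integral_gauss_id
  have e2 : ∫ x : ℝ, x ^ 2 ∂gaussianReal 0 1 = 1 := Vale.Agent.P168.Toolkit.integral_gauss_sq
  have e : ∀ x : ℝ, ∫ y, (x - y) ^ 2 ∂gaussianReal 0 1 = x ^ 2 + 1 := fun x => by
    have : ∀ y : ℝ, (x - y) ^ 2 = x ^ 2 + ((-(2 * x)) * y + y ^ 2) := fun y => by ring
    simp_rw [this]
    rw [integral_add (integrable_const _) ((i1.const_mul _).fun_add i2),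
      integral_add (i1.const_mul _) i2, integral_const_mul, e1, e2]
    simp
  simp only [e]
  rw [integral_add i2 (integrable_const _), e2]
  norm_num

lemma integrable_gauss_sq_sub (c : ℝ) :
    Integrable (fun p : ℝ × ℝ => (c * |p.1 - p.2|) ^ 2)
      ((gaussianReal 0 1).prod (gaussianReal 0 1)) := by
  have i2 : Integrable (fun x : ℝ => x ^ 2) (gaussianReal 0 1) :=
    Vale.Agent.P168.Toolkit.integrable_gauss_sq
  refine ((((i2.comp_fst _).add (i2.comp_snd _)).const_mul (2 * c ^ 2))).mono'
    (by fun_prop) (ae_of_all _ fun p => ?_)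
  simp only [Pi.add_apply, mul_pow, sq_abs, Real.norm_eq_abs]
  rw [abs_of_nonneg (by positivity)]
  nlinarith [sq_nonneg (p.1 + p.2), sq_nonneg c]

variable {f : ℝ → ℝ} {A δ a ε : ℝ} {ρ : Fin (r + 1) → ℝ} {m : Fin r → ℝ} {x : Fin N → ℝ}

/-- The averaged free energy of the slot family. -/
abbrev slotPhi (m : Fin r → ℝ) (f : ℝ → ℝ) (δ a : ℝ) (ρ : Fin (r + 1) → ℝ) (x : Fin N → ℝ) :
    SlotDis N j k → ℝ :=
  pertPhi (slotMarks N k) m (slotW f δ a ρ) (scale N) x

lemma abs_slotPhi_le (hs : Smooth f A) (ha : 0 ≤ a) (hm : Exps m) (hN : 0 < N)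
    (hx : ∀ i, |x i| ≤ 3) (d : SlotDis N j k) :
    |slotPhi m f δ a ρ x d| ≤
      |Real.log (Fintype.card (Cube N) * slotC A δ a ρ N j k)| + pertErr N :=
  abs_pertPhi_le hm hN (measW_slotW hs δ a ρ) (wbdd_slotW hs ha ρ) hx d

lemma abs_slotPhi_diff_le (hs : Smooth f A) (ha : 0 ≤ a) (hm : Exps m) (hN : 0 < N)
    (hx : ∀ i, |x i| ≤ 3) {d d' : SlotDis N j k} {c : ℝ}
    (h : ∀ (σ : Cube N) (η : Fin r → Fin k → Fin N → ℝ), |slotH f d.1 σ + (∑ b, fieldX δ a ρ (d.2 b) σ fun p => η p b) -
      (slotH f d'.1 σ + ∑ b, fieldX δ a ρ (d'.2 b) σ fun p => η p b)| ≤ c) :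
    |slotPhi m f δ a ρ x d - slotPhi m f δ a ρ x d'| ≤ c := by
  refine abs_pertPhi_diff_le hm hN (measW_slotW hs δ a ρ) (wbdd_slotW hs ha ρ) hx
    (fun σ η => ?_) fun σ η => ?_ <;>
  · simp only [slotW_eq, fieldsW, mul_assoc, ← Real.exp_add]
    refine mul_le_mul_of_nonneg_left (Real.exp_le_exp.2 ?_) (by positivity)
    linarith [(abs_le.1 (h σ η)).1, (abs_le.1 (h σ η)).2]

lemma variance_fields_le (hs : Smooth f A) (ha : 0 ≤ a) (hm : Exps m) (hN : 0 < N)
    (hx : ∀ i, |x i| ≤ 3) (hδ : 0 ≤ δ) (hρ : 0 ≤ ρ 0)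
    (p : (Fin j → Bool) × (Fin j → Fin N → ℝ)) :
    variance (fun E => slotPhi m f δ a ρ x (p, E)) (slotMarks N k) ≤
      (k : ℝ) * N * (δ * ρ 0) := by
  set G : (Fin k → Fin N → ℝ) → ℝ := fun E => slotPhi m f δ a ρ x (p, E)
  have hGm : Measurable G :=
    (measurable_pertPhi (measW_slotW hs δ a ρ) x).comp measurable_prodMk_left
  set H : (Fin k × Fin N → ℝ) → ℝ := fun z => G fun b i => z (b, i)
  have hmp := mp_uncurry (ι := Fin k) (κ := Fin N) (gaussianReal 0 1)
  have hHm : Measurable H := hGm.comp (by fun_prop)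
  have e : variance G (slotMarks N k) =
      variance H (Measure.pi fun _ : Fin k × Fin N => gaussianReal 0 1) :=
    hmp.variance_fun_comp hHm.aemeasurable
  rw [e]
  set c := Real.sqrt δ * Real.sqrt (ρ 0)
  refine (efronStein _ hHm (MemLp.of_bound hHm.aestronglyMeasurable
    (|Real.log (Fintype.card (Cube N) * slotC A δ a ρ N j k)| + pertErr N)
    (ae_of_all _ fun z => (Real.norm_eq_abs _).trans_le (abs_slotPhi_le hs ha hm hN hx _)))
    (d := fun _ s t => c * |s - t|) (fun _ => integrable_gauss_sq_sub c) fun z q y => ?_).trans_eq ?_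
  · refine abs_slotPhi_diff_le hs ha hm hN hx fun σ η => ?_
    rw [add_sub_add_left_eq_sub]
    exact abs_fieldsW_arg_sub_le δ a ρ z q y σ η
  · simp only [mul_pow, sq_abs, integral_const_mul, integral_gauss_sq_sub, c,
      Real.sq_sqrt hδ, Real.sq_sqrt hρ, Finset.sum_const, Finset.card_univ, Fintype.card_prod,
      Fintype.card_fin, nsmul_eq_mul]
    push_cast
    ring

lemma abs_slotH_update_coin (hs : Smooth f A) (c : Fin j → Bool) (g : Fin j → Fin N → ℝ)
    (b : Fin j) (v : Bool) (σ : Cube N) :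
    |slotH f (c, g) σ - slotH f (Function.update c b v, g) σ| ≤ if c b = v then 0 else A := by
  simp only [slotH, ← Finset.sum_sub_distrib]
  rw [Fintype.sum_eq_single b fun b' hb => by simp [Function.update_of_ne hb],
    Function.update_self]
  rcases c b <;> cases v <;> simp [hs.b0]

lemma abs_slotH_update_pat (hs : Smooth f A) (c : Fin j → Bool) (g : Fin j → Fin N → ℝ)
    (b : Fin j) (v : Fin N → ℝ) (σ : Cube N) :
    |slotH f (c, g) σ - slotH f (c, Function.update g b v) σ| ≤ if c b then 2 * A else 0 := by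
  simp only [slotH, ← Finset.sum_sub_distrib]
  rw [Fintype.sum_eq_single b fun b' hb => by simp [Function.update_of_ne hb],
    Function.update_self]
  cases c b
  · simp
  · simp only [if_true]
    exact (abs_sub _ _).trans (by linarith [hs.b0 (dot (g b) (unitVec σ)), hs.b0 (dot v (unitVec σ))])

/-- The slot family self-averages. -/
theorem slotVar : SlotVarStmt := by
  intro α A a f hα ha hs ξ s hsmono hs0
  have hm : Exps ξ.m := ⟨ξ.isPath.pos, ξ.isPath.lt_one, ξ.isPath.strictMono⟩
  refine ⟨3 * A ^ 2 * α + α * s 0, fun N j k L hjk ⟨hN, hL, hε1, _⟩ x hx => ?_⟩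
  set δ := 1 / (L : ℝ)
  set ρ : Fin (ξ.r + 1) → ℝ := fun p => α * s p
  set ε := α * N / L with hε
  have hL0 : (0 : ℝ) < L := by exact_mod_cast hL
  have hε0 : 0 ≤ ε := by positivity
  have hδ : 0 ≤ δ := by positivity
  have hρ0 : 0 ≤ ρ 0 := mul_nonneg hα.le hs0
  have := isProb_bern hε0 hε1
  set K := |Real.log (Fintype.card (Cube N) * slotC A δ a ρ N j k)| + pertErr N
  set P := slotPhi (N := N) (j := j) (k := k) ξ.m f δ a ρ x
  have hPm : Measurable P := measurable_pertPhi (measW_slotW hs δ a ρ) x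
  have hPb : ∀ d, |P d| ≤ K := abs_slotPhi_le hs ha hm hN hx
  set F : (Fin j → Bool) × (Fin j → Fin N → ℝ) → ℝ := fun p => ∫ E, P (p, E) ∂slotMarks N k
  have hFm : Measurable F := (hPm.stronglyMeasurable.integral_prod_right').measurable
  have hFb : ∀ p, |F p| ≤ K := fun p => by
    simpa using norm_integral_le_of_norm_le_const (μ := slotMarks N k) (f := fun E => P (p, E))
      (Eventually.of_forall fun E => (Real.norm_eq_abs _).trans_le (hPb _))
  have hsec : ∀ p, Integrable (fun E => P (p, E)) (slotMarks N k) := fun p =>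
    integrable_bdd (hPm.comp measurable_prodMk_left) fun E => hPb _
  have hFd : ∀ p p' : (Fin j → Bool) × (Fin j → Fin N → ℝ), ∀ c : ℝ,
      (∀ σ, |slotH f p σ - slotH f p' σ| ≤ c) → |F p - F p'| ≤ c := fun p p' c h =>
    abs_integral_sub_le (hsec p) (hsec p') fun E => abs_slotPhi_diff_le hs ha hm hN hx fun σ η => by
      rw [add_sub_add_right_eq_sub]; exact h σ
  set PC := Measure.pi fun _ : Fin j => bern ε
  set PG := Measure.pi fun _ : Fin j => gam (Fin N)
  have hjε : (j : ℝ) * ε ≤ α * N := by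
    calc (j : ℝ) * ε ≤ L * ε := by
          refine mul_le_mul_of_nonneg_right ?_ hε0
          exact_mod_cast (by omega : j ≤ L)
      _ = α * N := by rw [hε]; field_simp
  have hkδ : (k : ℝ) * δ ≤ 1 := by
    rw [show δ = 1 / (L : ℝ) from rfl, mul_one_div, div_le_one hL0]
    exact_mod_cast (by omega : k ≤ L)
  -- coins and patterns
  have hpat : variance F (PC.prod PG) ≤ 3 * A ^ 2 * (j * ε) := by
    set g : (Fin j → Bool) → ℝ := fun c => ∑ b, if c b then 2 * A ^ 2 else 0
    have hgm : ∀ b : Fin j, Measurable fun c : Fin j → Bool => if c b then 2 * A ^ 2 else 0 :=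
      fun b => (measurable_of_finite fun v : Bool => if v then 2 * A ^ 2 else 0).comp
        (measurable_pi_apply b)
    have hgi : ∀ b : Fin j, Integrable (fun c : Fin j → Bool => if c b then 2 * A ^ 2 else 0) PC :=
      fun b => integrable_bdd (C := 2 * A ^ 2) (hgm b) fun c => by
        split_ifs
        · rw [abs_of_nonneg (by positivity)]
        · simp; positivity
    have hsec' : ∀ c, Integrable (fun v => F (c, v)) PG := fun c =>
      integrable_bdd (hFm.comp measurable_prodMk_left) fun v => hFb _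
    refine (variance_prod_le (MemLp.of_bound hFm.aestronglyMeasurable K
      (ae_of_all _ fun p => (Real.norm_eq_abs _).trans_le (hFb p))) (g := g)
      (W := 2 * A ^ 2 * (j * ε)) (V := A ^ 2 * (j * ε)) (integrable_finsetSum _ fun b _ => hgi b)
      (fun c => ?_) (le_of_eq ?_) ?_).trans_eq (by ring)
    · have hsm : Measurable fun v => F (c, v) := hFm.comp measurable_prodMk_left
      refine (efronStein _ hsm (MemLp.of_bound hsm.aestronglyMeasurable K
        (ae_of_all _ fun v => (Real.norm_eq_abs _).trans_le (hFb _)))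
        (d := fun b _ _ => if c b then 2 * A else 0) (fun _ => integrable_const _)
        fun v b y => hFd _ _ _ (abs_slotH_update_pat hs c v b y)).trans_eq ?_
      simp only [integral_const, probReal_univ, one_smul, g]
      refine Finset.sum_congr rfl fun b _ => ?_
      split_ifs <;> ring
    · rw [integral_finsetSum _ fun b _ => hgi b]
      have e : ∀ b : Fin j, ∫ c, (if c b then 2 * A ^ 2 else 0) ∂PC = 2 * A ^ 2 * ε := fun b => by
        rw [integral_mp (measurePreserving_eval (fun _ : Fin j => bern ε) b)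
          (measurable_of_finite fun v : Bool => if v then 2 * A ^ 2 else 0),
          integral_bern hε0 hε1]
        simp
        ring
      simp only [e, Finset.sum_const, Finset.card_univ, Fintype.card_fin, nsmul_eq_mul]
      ring
    · set M : (Fin j → Bool) → ℝ := fun c => ∫ v, F (c, v) ∂PG
      have hMm : Measurable M := measurable_of_finite M
      refine (efronStein _ hMm MemLp.of_discrete (d := fun _ u v => if u = v then 0 else A)
        (fun _ => Integrable.of_finite) fun c b v => ?_).trans ?_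
      · exact abs_integral_sub_le (hsec' _) (hsec' _) fun w =>
          hFd _ _ _ fun σ => abs_slotH_update_coin hs c w b v σ
      · simp only [integral_bern hε0 hε1, Bool.true_eq_false, Bool.false_eq_true, if_false, if_true,
          Finset.sum_const, Finset.card_univ, Fintype.card_fin, nsmul_eq_mul]
        have : ε * (1 - ε) ≤ ε := mul_le_of_le_one_right hε0 (by linarith)
        have h2 := mul_le_mul_of_nonneg_left this
          (mul_nonneg (sq_nonneg A) (Nat.cast_nonneg j : (0 : ℝ) ≤ j))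
        nlinarith
  refine (variance_prod_le (f := P) (μ := PC.prod PG) (ν := slotMarks N k)
    (MemLp.of_bound hPm.aestronglyMeasurable K
      (ae_of_all _ fun d => (Real.norm_eq_abs _).trans_le (hPb d)))
    (g := fun _ => (k : ℝ) * N * (δ * ρ 0)) (W := α * s 0 * N) (V := 3 * A ^ 2 * (α * N))
    (integrable_const _) (variance_fields_le hs ha hm hN hx hδ hρ0) ?_
    (hpat.trans (mul_le_mul_of_nonneg_left hjε (by positivity)))).trans_eq (by ring)
  simp only [integral_const, probReal_univ, one_smul]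
  calc (k : ℝ) * N * (δ * ρ 0) = (k * δ) * (ρ 0 * N) := by ring
    _ ≤ 1 * (ρ 0 * N) := mul_le_mul_of_nonneg_right hkδ (by positivity)
    _ = α * s 0 * N := by simp [ρ]

end Vale.Agent.P166.NW
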