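import Vale.Agent.P166.NW.Chain.Var
import Vale.Agent.P157.Parisi.ModA.TiltFactor

/-!
One slot: adding a pattern slot, adding a field.
-/

noncomputable section

open MeasureTheory ProbabilityTheory Filter
open scoped BigOperators Topology

namespace Vale.Agent.P166.NW

open Vale.Agent.P157 Vale.Agent.P157.Parisi Vale.Agent.P157.Parisi.Up
open Vale.Agent.P168 (genNested)
open Vale.Agent.P168.Cascade (Exps Bdd)
open Vale.Agent.P168.Upper (integral_mp genNested_map)

variable {r N j k : ℕ} {f : ℝ → ℝ} {A δ a ε : ℝ} {ρ : Fin (r + 1) → ℝ} {m : Fin r → ℝ}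
  {x : Fin N → ℝ}

/-- The averaged free energy at given perturbation parameters. -/
def slotV (m : Fin r → ℝ) (f : ℝ → ℝ) (ε δ a : ℝ) (ρ : Fin (r + 1) → ℝ) (N j k : ℕ)
    (x : Fin N → ℝ) : ℝ :=
  ∫ d, slotPhi m f δ a ρ x d ∂slotLaw N j k ε

/-- The bound on the free energy of the slots. -/
def slotK (A δ a : ℝ) (ρ : Fin (r + 1) → ℝ) (N j k : ℕ) : ℝ :=
  |Real.log (Fintype.card (Cube N) * slotC A δ a ρ N j k)|

lemma abs_Phi_slot_le (hs : Smooth f A) (ha : 0 ≤ a) (hm : Exps m) (hN : 0 < N) (x : Fin N → ℝ)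
    (e : SlotDis N j k × (PertIdx N N → ℝ)) :
    |Phi (slotMarks N k) m (pertW (slotW f δ a ρ) (scale N) x e)| ≤
      slotK A δ a ρ N j k + pertM ((N : ℝ) ^ (1 / 8 : ℝ)) (scale N) x e.2 := by
  have h1 := abs_Phi_pertW_sub_le (ν := slotMarks N k) hm hN
    (w := slotW (j := j) f δ a ρ) (wbdd_slotW hs ha ρ) x e
  have h2 := abs_Phi_le' (slotMarks N k) hm (wbdd_slotW (δ := δ) hs ha ρ e.1)
  unfold slotK
  linarith [abs_sub_abs_le_abs_sub (Phi (slotMarks N k) m (pertW (slotW f δ a ρ) (scale N) x e))
    (Phi (slotMarks N k) m (slotW f δ a ρ e.1))]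

lemma measurable_Phi_slot (hs : Smooth f A) (x : Fin N → ℝ) :
    Measurable fun e : SlotDis N j k × (PertIdx N N → ℝ) =>
      Phi (slotMarks N k) m (pertW (slotW f δ a ρ) (scale N) x e) :=
  measurable_Phi _ m (measW_pertW_right (measW_slotW hs δ a ρ) _ x)

lemma isProb_slotLaw (h0 : 0 ≤ ε) (h1 : ε ≤ 1) : IsProbabilityMeasure (slotLaw N j k ε) := by
  have := isProb_bern h0 h1
  unfold slotLaw
  infer_instance

lemma abs_patInc_le {β : Type} [MeasurableSpace β] (ν : Measure β) [IsProbabilityMeasure ν]
    (hm : Exps m) (hs : Smooth f A) {C : ℝ} {w : Cube N → (Fin r → β) → ℝ} (hw : WBdd C w) :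
    |patInc ν m f w| ≤ A := by
  refine (Real.norm_eq_abs (patInc ν m f w)).symm.trans_le ((norm_integral_le_of_norm_le_const
    (C := A) (Eventually.of_forall fun g => (Real.norm_eq_abs _).trans_le ?_)).trans_eq (by simp))
  refine abs_Phi_sub_le ν hm hw (wbdd_patU hs hw g)
    (fun σ η => mul_le_mul_of_nonneg_left (Real.exp_le_exp.2 (le_of_abs_le (hs.b0 _)))
      ((hw σ).gt_zero η).le) fun σ η => ?_
  rw [patU, mul_assoc, ← Real.exp_add]
  exact le_mul_of_one_le_right ((hw σ).gt_zero η).le
    (Real.one_le_exp (by linarith [(abs_le.1 (hs.b0 (dot g (unitVec σ)))).1]))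

lemma measurable_patInc (hs : Smooth f A) (x : Fin N → ℝ) :
    Measurable fun e : SlotDis N j k × (PertIdx N N → ℝ) =>
      patInc (slotMarks N k) m f (pertW (slotW f δ a ρ) (scale N) x e) := by
  have hW := measW_pertW_right (measW_slotW (N := N) (j := j) (k := k) hs δ a ρ) (scale N) x
  exact (((measurable_Phi (slotMarks N k) m (measW_patU hs hW)).sub
    ((measurable_Phi (slotMarks N k) m hW).comp measurable_fst)).stronglyMeasurable.integral_prod_right'
      (ν := gam (Fin N))).measurable

lemma integrable_patInc (hs : Smooth f A) (ha : 0 ≤ a) (hm : Exps m) (hN : 0 < N) (x : Fin N → ℝ)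
    (μ : Measure (SlotDis N j k × (PertIdx N N → ℝ))) [IsFiniteMeasure μ] :
    Integrable (fun e => patInc (slotMarks N k) m f (pertW (slotW f δ a ρ) (scale N) x e)) μ :=
  integrable_bdd (measurable_patInc hs x) fun e =>
    abs_patInc_le _ hm hs (wbdd_pertW hN (wbdd_slotW hs ha ρ) x e)

lemma measurable_fieldPair {P β : Type} [MeasurableSpace P] [MeasurableSpace β] (ν : Measure β)
    [IsProbabilityMeasure ν] (s : Fin (r + 1) → ℝ) {W : P → Cube N → (Fin r → β) → ℝ}
    (hW : MeasW W) : Measurable fun p => fieldPair ν m s (W p) := by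
  refine Finset.measurable_sum _ fun p _ => ((Finset.measurable_sum _ fun i _ => ?_).const_mul
    (1 / (N : ℝ))).const_mul (s p) |>.const_mul (weight m p)
  have hY : Measurable (Function.uncurry fun d η => ∑ σ, W d σ η) :=
    Finset.measurable_sum _ fun σ _ => hW σ
  have hG : Measurable (Function.uncurry fun d η => mag (W d) i η) :=
    Finset.measurable_sum _ fun σ _ => (hW σ).mul_const _
  exact measurable_pairM ν m hY hG hG p

lemma abs_fieldPair_le {β : Type} [MeasurableSpace β] (ν : Measure β) [IsProbabilityMeasure ν]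
    (hm : Exps m) {s : Fin (r + 1) → ℝ} (hs : Monotone s) (hs0 : 0 ≤ s 0) {C : ℝ}
    {w : Cube N → (Fin r → β) → ℝ} (hw : WBdd C w) :
    |fieldPair ν m s w| ≤ s (Fin.last r) := by
  refine (Finset.abs_sum_le_sum_abs _ _).trans ?_
  calc ∑ p : Fin (r + 1), |weight m p * (s p * bVal ν m w p)|
      ≤ ∑ p : Fin (r + 1), weight m p * s (Fin.last r) := Finset.sum_le_sum fun p _ => by
        have hp : 0 ≤ s p := hs0.trans (hs (Fin.zero_le p))
        rw [abs_mul, abs_mul, abs_of_nonneg (weight_nonneg hm p), abs_of_nonneg hp]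
        refine mul_le_mul_of_nonneg_left ?_ (weight_nonneg hm p)
        calc s p * |bVal ν m w p| ≤ s p * 1 :=
              mul_le_mul_of_nonneg_left (abs_bVal_le ν hm hw p) hp
          _ ≤ s (Fin.last r) := by rw [mul_one]; exact hs (Fin.le_last p)
    _ = s (Fin.last r) := by rw [← Finset.sum_mul, sum_weight, one_mul]

lemma integrable_fieldPair (hs : Smooth f A) (ha : 0 ≤ a) (hm : Exps m) (hN : 0 < N)
    (x : Fin N → ℝ) {s : Fin (r + 1) → ℝ} (hmono : Monotone s) (hs0 : 0 ≤ s 0)
    (μ : Measure (SlotDis N j k × (PertIdx N N → ℝ))) [IsFiniteMeasure μ] :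
    Integrable (fun e => fieldPair (slotMarks N k) m s (pertW (slotW f δ a ρ) (scale N) x e)) μ :=
  integrable_bdd (measurable_fieldPair (slotMarks N k) s
      (measW_pertW_right (measW_slotW hs δ a ρ) (scale N) x))
    fun e => abs_fieldPair_le _ hm hmono hs0 (wbdd_pertW hN (wbdd_slotW hs ha ρ) x e)

/-- One more slot adds a pattern with probability `ε`. -/
lemma slotV_succ_pat (hs : Smooth f A) (ha : 0 ≤ a) (hm : Exps m) (hN : 0 < N)
    (h0 : 0 ≤ ε) (h1 : ε ≤ 1) (hx : ∀ i, |x i| ≤ 3) :
    slotV m f ε δ a ρ N (j + 1) k x = slotV m f ε δ a ρ N j k x +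
      ε * ∫ e, patInc (slotMarks N k) m f (pertW (slotW f δ a ρ) (scale N) x e)
        ∂famLaw (slotLaw N j k ε) N N := by
  have := isProb_bern h0 h1
  have := isProb_slotLaw (N := N) (j := j) (k := k) h0 h1
  have := isProb_slotLaw (N := N) (j := j + 1) (k := k) h0 h1
  set P := fun d : SlotDis N j k => slotPhi m f δ a ρ x d
  set P' := fun d : SlotDis N (j + 1) k => slotPhi m f δ a ρ x d
  set μJ := gam (PertIdx N N)
  set inc := fun e => patInc (slotMarks N k) m f (pertW (slotW (j := j) f δ a ρ) (scale N) x e)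
  let emb : Bool → (Fin N → ℝ) → SlotDis N j k → SlotDis N (j + 1) k := fun c g d =>
    ((Fin.cons c d.1.1, Fin.cons g d.1.2), d.2)
  have hcons : ∀ {X : Type} [MeasurableSpace X], Measurable fun z : X × (Fin j → X) =>
      (Fin.cons z.1 z.2 : Fin (j + 1) → X) := fun {X} _ => measurable_pi_lambda _ fun i => by
    cases i using Fin.cases with
    | zero => simpa using measurable_fst
    | succ i =>
      simp only [Fin.cons_succ]
      exact (measurable_pi_apply i).comp measurable_snd
  have hemb : ∀ c, Measurable fun z : (Fin N → ℝ) × SlotDis N j k => emb c z.1 z.2 := fun c =>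
    ((hcons.comp (measurable_const.prodMk measurable_snd.fst.fst)).prodMk
      (hcons.comp (measurable_fst.prodMk measurable_snd.fst.snd))).prodMk measurable_snd.snd
  have hP'm : Measurable P' := measurable_pertPhi (measW_slotW hs δ a ρ) x
  have hPm : Measurable P := measurable_pertPhi (measW_slotW hs δ a ρ) x
  have hP'b : ∀ d, |P' d| ≤ slotK A δ a ρ N (j + 1) k + pertErr N :=
    abs_slotPhi_le hs ha hm hN hx
  have hPi : Integrable P (slotLaw N j k ε) :=
    integrable_bdd hPm fun d => abs_slotPhi_le hs ha hm hN hx d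
  set K' := slotK A δ a ρ N (j + 1) k + pertErr N
  set Fm : (Fin (j + 1) → Bool) × (Fin (j + 1) → Fin N → ℝ) → ℝ := fun p =>
    ∫ E, P' (p, E) ∂slotMarks N k
  have hFm : Measurable Fm := (hP'm.stronglyMeasurable.integral_prod_right').measurable
  have hFb : ∀ p, |Fm p| ≤ K' := fun p => by
    simpa using norm_integral_le_of_norm_le_const (μ := slotMarks N k) (f := fun E => P' (p, E))
      (Eventually.of_forall fun E => (Real.norm_eq_abs _).trans_le (hP'b _))
  have hsplit : slotV m f ε δ a ρ N (j + 1) k x = ∫ p, Fm p ∂patLaw N (j + 1) ε :=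
    integral_prod P' (integrable_bdd hP'm hP'b)
  rw [hsplit, integral_pat_succ h0 h1 hFm hFb]
  have hQ : ∀ c, ∫ p, ∫ g, Fm (Fin.cons c p.1, Fin.cons g p.2) ∂gam (Fin N) ∂patLaw N j ε =
      ∫ d, ∫ g, P' (emb c g d) ∂gam (Fin N) ∂slotLaw N j k ε := fun c => by
    have hm2 : Measurable fun z : SlotDis N j k × (Fin N → ℝ) => P' (emb c z.2 z.1) :=
      hP'm.comp ((hemb c).comp (measurable_snd.prodMk measurable_fst))
    refine Eq.trans ?_ (integral_prod (fun d => ∫ g, P' (emb c g d) ∂gam (Fin N))
      (integrable_bdd (C := K') hm2.stronglyMeasurable.integral_prod_right'.measurable fun d => by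
        simpa using norm_integral_le_of_norm_le_const (μ := gam (Fin N))
          (f := fun g => P' (emb c g d))
          (Eventually.of_forall fun g => (Real.norm_eq_abs _).trans_le (hP'b _)))).symm
    refine integral_congr_ae (Eventually.of_forall fun p => ?_)
    exact integral_integral_swap (f := fun g E => P' (emb c g (p, E))) (integrable_bdd
      ((hP'm.comp (hemb c)).comp (f := fun z : (Fin N → ℝ) × (Fin k → Fin N → ℝ) => (z.1, (p, z.2)))
        (measurable_fst.prodMk (measurable_const.prodMk measurable_snd))) fun z => hP'b _)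
  have efalse : ∀ d g, P' (emb false g d) = P d := fun d g => by
    simp only [P', P, emb, slotPhi, pertPhi]
    refine integral_congr_ae (Eventually.of_forall fun J => ?_)
    simp only
    congr 1
    funext σ η
    simp only [pertW, slotW_eq, slotH_cons]
    simp
  have etrue : ∀ d, ∫ g, P' (emb true g d) ∂gam (Fin N) = (∫ J, inc (d, J) ∂μJ) + P d := fun d => by
    set R : (Fin N → ℝ) → (PertIdx N N → ℝ) → ℝ := fun g J =>
      Phi (slotMarks N k) m fun σ η => pertW (slotW f δ a ρ) (scale N) x (d, J) σ η * patU f g σ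
    have e : ∀ g J, Phi (slotMarks N k) m
        (pertW (slotW f δ a ρ) (scale N) x (emb true g d, J)) = R g J := fun g J => by
      simp only [R, emb, pertW]
      congr 1
      funext σ η
      simp only [pertW, slotW_eq, slotH_cons, if_true, Real.exp_add, patU]
      ring
    have hRm : Measurable fun z : (Fin N → ℝ) × (PertIdx N N → ℝ) => R z.1 z.2 := by
      simp only [← e]
      exact (measurable_Phi_slot hs x).comp
        (((hemb true).comp (measurable_fst.prodMk measurable_const)).prodMk measurable_snd)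
    have hRi : Integrable (fun z : (Fin N → ℝ) × (PertIdx N N → ℝ) => R z.1 z.2)
        ((gam (Fin N)).prod μJ) := by
      refine ((integrable_const (slotK A δ a ρ N (j + 1) k)).add
        ((pertM_mean hN hx).1.comp_snd _)).mono' hRm.aestronglyMeasurable
        (ae_of_all _ fun z => ?_)
      rw [Real.norm_eq_abs, ← e]
      exact abs_Phi_slot_le hs ha hm hN x (emb true z.1 d, z.2)
    have eP : ∀ g, P' (emb true g d) = ∫ J, R g J ∂μJ := fun g =>
      integral_congr_ae (Eventually.of_forall fun J => e g J)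
    simp only [eP]
    rw [integral_integral_swap hRi]
    have hPhi := integrable_Phi_pertW_sec (ν := slotMarks N k) hm hN (measW_slotW hs δ a ρ)
      (wbdd_slotW (j := j) hs ha ρ) hx d
    have e2 : ∀ J, ∫ g, R g J ∂gam (Fin N) =
        inc (d, J) + Phi (slotMarks N k) m (pertW (slotW f δ a ρ) (scale N) x (d, J)) := fun J => by
      simp only [inc, patInc]
      rw [integral_sub ?_ (integrable_const _)]
      · simp [R]
      · have hw := wbdd_pertW hN (wbdd_slotW (j := j) (k := k) hs ha ρ (δ := δ)) x (d, J)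
        exact integrable_bdd (measurable_Phi _ m (measW_patU_const hs hw))
          fun g => abs_Phi_le' _ hm (wbdd_patU hs hw g)
    simp only [e2]
    rw [integral_add ?_ hPhi]
    · rfl
    · exact integrable_bdd ((measurable_patInc hs x).comp measurable_prodMk_left)
        fun J => abs_patInc_le _ hm hs (wbdd_pertW hN (wbdd_slotW hs ha ρ) x (d, J))
  have hinc := integrable_patInc (δ := δ) (ρ := ρ) hs ha hm hN x ((slotLaw N j k ε).prod μJ)
  simp only [hQ, efalse, etrue]
  rw [integral_add hinc.integral_prod_left hPi, ← integral_prod _ hinc]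
  simp only [integral_const, probReal_univ, one_smul, famLaw, slotV, inc, P]
  ring

/-- Marks of one more field. -/
lemma mp_marks_succ (N k : ℕ) : MeasurePreserving
    (fun z : (Fin k → Fin N → ℝ) × (Fin N → ℝ) => (Fin.cons z.2 z.1 : Fin (k + 1) → Fin N → ℝ))
    ((slotMarks N k).prod (gam (Fin N))) (slotMarks N (k + 1)) :=
  (mp_cons (gam (Fin N)) k).comp Measure.measurePreserving_swap

/-- One more field. -/
lemma slotV_succ_field (hs : Smooth f A) (ha : 0 ≤ a) (hm : Exps m) (hN : 0 < N)
    (h0 : 0 ≤ ε) (h1 : ε ≤ 1) (hx : ∀ i, |x i| ≤ 3) {s : Fin (r + 1) → ℝ} (hmono : Monotone s)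
    (hs0 : 0 ≤ s 0) {α : ℝ} (hα : 0 ≤ α) (hδ : 0 ≤ δ) (hεδ : ε = α * N * δ)
    (hM : fieldM δ a N (fun p => α * s p) ≤ 1 / 10) :
    slotV m f ε δ a (fun p => α * s p) N j k x + ε * svar a / 2 * (s (Fin.last r) -
        ∫ e, fieldPair (slotMarks N k) m s (pertW (slotW f δ a fun p => α * s p) (scale N) x e)
          ∂famLaw (slotLaw N j k ε) N N) - 20 * fieldM δ a N (fun p => α * s p) ^ 3 ≤
      slotV m f ε δ a (fun p => α * s p) N j (k + 1) x := by
  have := isProb_bern h0 h1
  have := isProb_slotLaw (N := N) (j := j) (k := k) h0 h1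
  have := isProb_slotLaw (N := N) (j := j) (k := k + 1) h0 h1
  set ρ := fun p => α * s p
  set c := ε * svar a / 2
  set M3 := 20 * fieldM δ a N ρ ^ 3
  set P := fun d : SlotDis N j k => slotPhi m f δ a ρ x d
  set P' := fun d : SlotDis N j (k + 1) => slotPhi m f δ a ρ x d
  set μJ := gam (PertIdx N N)
  set pr := fun e => fieldPair (slotMarks N k) m s (pertW (slotW (j := j) f δ a ρ) (scale N) x e)
  have hP'm : Measurable P' := measurable_pertPhi (measW_slotW hs δ a ρ) x
  have hP'b : ∀ d, |P' d| ≤ slotK A δ a ρ N j (k + 1) + pertErr N := abs_slotPhi_le hs ha hm hN hx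
  have hPi : Integrable P (slotLaw N j k ε) := integrable_bdd
    (measurable_pertPhi (measW_slotW hs δ a ρ) x) fun d => abs_slotPhi_le hs ha hm hN hx d
  let emb : (Fin N → ℝ) → SlotDis N j k → SlotDis N j (k + 1) := fun e₀ d =>
    (d.1, Fin.cons e₀ d.2)
  have hemb : Measurable fun z : (Fin N → ℝ) × SlotDis N j k => emb z.1 z.2 :=
    measurable_snd.fst.prodMk
      ((mp_cons (gam (Fin N)) k).measurable.comp (measurable_fst.prodMk measurable_snd.snd))
  have hm2 : Measurable fun z : SlotDis N j k × (Fin N → ℝ) => P' (emb z.2 z.1) :=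
    hP'm.comp (hemb.comp (measurable_snd.prodMk measurable_fst))
  have hQi : Integrable (fun d => ∫ e₀, P' (emb e₀ d) ∂gam (Fin N)) (slotLaw N j k ε) :=
    integrable_bdd hm2.stronglyMeasurable.integral_prod_right'.measurable fun d => by
      simpa using norm_integral_le_of_norm_le_const (μ := gam (Fin N))
        (f := fun e₀ => P' (emb e₀ d))
        (Eventually.of_forall fun g => (Real.norm_eq_abs _).trans_le (hP'b _))
  have hsplit : slotV m f ε δ a ρ N j (k + 1) x =
      ∫ d, ∫ e₀, P' (emb e₀ d) ∂gam (Fin N) ∂slotLaw N j k ε := by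
    refine (integral_prod P' (integrable_bdd hP'm hP'b)).trans
      (Eq.trans ?_ (integral_prod (fun d => ∫ e₀, P' (emb e₀ d) ∂gam (Fin N)) hQi).symm)
    refine integral_congr_ae (Eventually.of_forall fun p => ?_)
    refine (integral_mp (mp_cons (gam (Fin N)) k)
      (g := fun E => P' (p, E)) (hP'm.comp measurable_prodMk_left)).symm.trans ?_
    exact integral_prod_symm _ (integrable_bdd
      ((hP'm.comp measurable_prodMk_left).comp (mp_cons (gam (Fin N)) k).measurable) fun z => hP'b _)
  have key : ∀ d, P d + c * (s (Fin.last r) - ∫ J, pr (d, J) ∂μJ) - M3 ≤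
      ∫ e₀, P' (emb e₀ d) ∂gam (Fin N) := fun d => by
    set R : (Fin N → ℝ) → (PertIdx N N → ℝ) → ℝ := fun e₀ J =>
      Phi (slotMarks N (k + 1)) m (pertW (slotW f δ a ρ) (scale N) x (emb e₀ d, J))
    have hRm : Measurable fun z : (Fin N → ℝ) × (PertIdx N N → ℝ) => R z.1 z.2 :=
      (measurable_Phi_slot hs x).comp
        ((hemb.comp (measurable_fst.prodMk measurable_const)).prodMk measurable_snd)
    have hRi : Integrable (fun z : (Fin N → ℝ) × (PertIdx N N → ℝ) => R z.1 z.2)
        ((gam (Fin N)).prod μJ) :=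
      ((integrable_const (slotK A δ a ρ N j (k + 1))).add
        ((pertM_mean hN hx).1.comp_snd _)).mono' hRm.aestronglyMeasurable
        (ae_of_all _ fun z => (Real.norm_eq_abs _).trans_le
          (abs_Phi_slot_le hs ha hm hN x (emb z.1 d, z.2)))
    show _ ≤ ∫ e₀, ∫ J, R e₀ J ∂μJ ∂gam (Fin N)
    rw [integral_integral_swap hRi]
    have hstep : ∀ J, Phi (slotMarks N k) m (pertW (slotW f δ a ρ) (scale N) x (d, J)) +
        c * (s (Fin.last r) - pr (d, J)) - M3 ≤ ∫ e₀, R e₀ J ∂gam (Fin N) := fun J => by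
      set w := pertW (slotW f δ a ρ) (scale N) x (d, J)
      have hw := wbdd_pertW hN (wbdd_slotW (j := j) (k := k) hs ha ρ (δ := δ)) x (d, J)
      have e : ∀ e₀, R e₀ J =
          Phi ((slotMarks N k).prod (gam (Fin N))) m (tens w (fieldZ δ a ρ e₀)) := fun e₀ => by
        refine congrArg Real.log ?_
        rw [← genNested_map _ _ (mp_marks_succ N k) m _
          (bdd_sum (wbdd_pertW hN (wbdd_slotW hs ha ρ) x (emb e₀ d, J))).meas]
        congr 1
        funext η
        refine Finset.sum_congr rfl fun σ _ => ?_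
        simp only [w, pertW, emb, tens, slotW_eq, fieldsW, fieldZ, Fin.sum_univ_succ, Fin.cons_zero,
          Fin.cons_succ, Real.exp_add]
        ring
      simp only [e]
      refine le_trans (le_of_eq ?_) (fieldStep (slotMarks N k)
        (Vale.Agent.P157.Parisi.tilt_factor) hm
        (ρ := ρ) (fun p q hpq => mul_le_mul_of_nonneg_left (hmono hpq) hα)
        (mul_nonneg hα hs0) hδ ha hw hM)
      simp only [c, M3, pr, ρ, fieldPair, hεδ, fieldM, w]
      rw [show ∑ p : Fin (r + 1), weight m p * (α * s p *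
          bVal (slotMarks N k) m (pertW (slotW f δ a fun p => α * s p) (scale N) x (d, J)) p) =
        α * ∑ p : Fin (r + 1), weight m p * (s p *
          bVal (slotMarks N k) m (pertW (slotW f δ a fun p => α * s p) (scale N) x (d, J)) p) by
        rw [Finset.mul_sum]; exact Finset.sum_congr rfl fun p _ => by ring]
      ring
    have hPhi := integrable_Phi_pertW_sec (ν := slotMarks N k) hm hN (measW_slotW hs δ a ρ)
      (wbdd_slotW (j := j) hs ha ρ) hx d
    have hpri : Integrable (fun J => pr (d, J)) μJ := integrable_bdd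
      ((measurable_fieldPair (slotMarks N k) s
        (measW_pertW_right (measW_slotW (j := j) hs δ a ρ) (scale N) x)).comp measurable_prodMk_left)
      fun J => abs_fieldPair_le _ hm hmono hs0 (wbdd_pertW hN (wbdd_slotW hs ha ρ) x (d, J))
    have hd : Integrable (fun J => s (Fin.last r) - pr (d, J)) μJ := (integrable_const _).sub hpri
    refine le_trans (le_of_eq ?_) (integral_mono ((hPhi.add (hd.const_mul c)).sub
      (integrable_const M3)) hRi.integral_prod_right hstep)
    simp only [Pi.add_apply, Pi.sub_apply]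
    rw [integral_sub (hPhi.fun_add (hd.const_mul c)) (integrable_const _),
      integral_add hPhi (hd.const_mul c), integral_const_mul,
      integral_sub (integrable_const _) hpri]
    simp only [integral_const, probReal_univ, one_smul]
    rfl
  have hprod := integrable_fieldPair (δ := δ) (ρ := ρ) hs ha hm hN x hmono hs0
    ((slotLaw N j k ε).prod μJ)
  have hd : Integrable (fun d => s (Fin.last r) - ∫ J, pr (d, J) ∂μJ) (slotLaw N j k ε) :=
    (integrable_const _).sub hprod.integral_prod_left
  have hlow := integral_mono ((hPi.add (hd.const_mul c)).sub (integrable_const M3)) hQi key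
  rw [hsplit]
  refine le_trans (le_of_eq ?_) hlow
  simp only [Pi.add_apply, Pi.sub_apply]
  rw [integral_sub (hPi.fun_add (hd.const_mul c)) (integrable_const _),
    integral_add hPi (hd.const_mul c), integral_const_mul,
    integral_sub (integrable_const _) hprod.integral_prod_left, ← integral_prod _ hprod]
  simp only [integral_const, probReal_univ, one_smul]
  rfl

end Vale.Agent.P166.NW
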