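import Vale.Agent.P166.NW.Chain.Tools

/-!
The slot family: bounds, measurability, and its law split at one slot.
-/

noncomputable section

open MeasureTheory ProbabilityTheory Filter
open scoped BigOperators Topology

namespace Vale.Agent.P166.NW

open Vale.Agent.P157 Vale.Agent.P157.Parisi Vale.Agent.P157.Parisi.Up
open Vale.Agent.P168.Cascade (Exps Bdd)
open Vale.Agent.P168.Upper (integral_mp)

variable {r N j k : ℕ}

/-- The pattern exponent of the slots. -/
def slotH (f : ℝ → ℝ) (p : (Fin j → Bool) × (Fin j → Fin N → ℝ)) (σ : Cube N) : ℝ :=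
  ∑ b, if p.1 b then f (dot (p.2 b) (unitVec σ)) else 0

lemma slotW_eq (f : ℝ → ℝ) (δ a : ℝ) (ρ : Fin (r + 1) → ℝ) (d : SlotDis N j k) (σ : Cube N)
    (η : Fin r → Fin k → Fin N → ℝ) :
    slotW f δ a ρ d σ η = ((2 : ℝ) ^ N)⁻¹ * Real.exp (slotH f d.1 σ) * fieldsW δ a ρ d.2 σ η := rfl

lemma abs_slotH_le {f : ℝ → ℝ} {A : ℝ} (hs : Smooth f A)
    (p : (Fin j → Bool) × (Fin j → Fin N → ℝ)) (σ : Cube N) : |slotH f p σ| ≤ j * A := by
  refine (Finset.abs_sum_le_sum_abs _ _).trans ((Finset.sum_le_sum fun b _ => ?_).trans_eq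
    (by simp : ∑ _b : Fin j, A = j * A))
  split_ifs
  · exact hs.b0 _
  · simpa using (abs_nonneg _).trans (hs.b0 0)

lemma measurable_slotH {f : ℝ → ℝ} {A : ℝ} (hs : Smooth f A) (σ : Cube N) :
    Measurable fun p : (Fin j → Bool) × (Fin j → Fin N → ℝ) => slotH f p σ := by
  refine Finset.measurable_sum _ fun b _ => ?_
  have hm : Measurable fun p : (Fin j → Bool) × (Fin j → Fin N → ℝ) => p.1 b := by fun_prop
  have hset : MeasurableSet {p : (Fin j → Bool) × (Fin j → Fin N → ℝ) | p.1 b = true} :=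
    hm (measurableSet_singleton true)
  refine Measurable.ite hset ((continuous_of_smooth hs).measurable.comp ?_) measurable_const
  unfold dot; fun_prop

/-- The bound on the weights of the slots. -/
def slotC (A δ a : ℝ) (ρ : Fin (r + 1) → ℝ) (N j k : ℕ) : ℝ :=
  (2 : ℝ) ^ N * Real.exp (j * A) * Real.exp (k * fieldM δ a N ρ)

lemma wbdd_slotW {f : ℝ → ℝ} {A δ a : ℝ} (hs : Smooth f A) (ha : 0 ≤ a) (ρ : Fin (r + 1) → ℝ)
    (d : SlotDis N j k) : WBdd (slotC A δ a ρ N j k) (slotW f δ a ρ d) := fun σ => by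
  have hb : ∀ η : Fin r → Fin k → Fin N → ℝ,
      |∑ b, fieldX δ a ρ (d.2 b) σ (fun p => η p b)| ≤ k * fieldM δ a N ρ := fun η =>
    (Finset.abs_sum_le_sum_abs _ _).trans
      ((Finset.sum_le_sum fun b _ => abs_fieldX_le ha ρ (d.2 b) σ _).trans_eq (by simp [fieldM]))
  have hH := abs_le.1 (abs_slotH_le hs d.1 σ)
  have h2 : ((2 : ℝ) ^ N)⁻¹ ≤ (2 : ℝ) ^ N :=
    (inv_le_one_of_one_le₀ (one_le_pow₀ one_le_two)).trans (one_le_pow₀ one_le_two)
  refine ⟨by unfold slotC; positivity, ?_, fun η => ⟨?_, ?_⟩⟩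
  · exact (((measurable_fieldsW δ a ρ σ).comp
      (measurable_const.prodMk measurable_id))).const_mul _
  · simp only [slotW_eq, slotC, mul_inv, ← Real.exp_neg, fieldsW]
    exact mul_le_mul (mul_le_mul_of_nonneg_left (Real.exp_le_exp.2 hH.1) (by positivity))
      (Real.exp_le_exp.2 (abs_le.1 (hb η)).1) (Real.exp_pos _).le
      (mul_pos (by positivity) (Real.exp_pos _)).le
  · simp only [slotW_eq, slotC, fieldsW]
    exact mul_le_mul (mul_le_mul h2 (Real.exp_le_exp.2 hH.2) (Real.exp_pos _).le (by positivity))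
      (Real.exp_le_exp.2 (abs_le.1 (hb η)).2) (Real.exp_pos _).le
      (mul_pos (by positivity) (Real.exp_pos _)).le

lemma measW_slotW {f : ℝ → ℝ} {A : ℝ} (hs : Smooth f A) (δ a : ℝ) (ρ : Fin (r + 1) → ℝ) :
    MeasW (slotW (N := N) (j := j) (k := k) f δ a ρ) := fun σ => by
  have hd : Measurable fun z : SlotDis N j k × (Fin r → Fin k → Fin N → ℝ) => z.1.1 :=
    measurable_fst.fst
  have hq : Measurable fun z : SlotDis N j k × (Fin r → Fin k → Fin N → ℝ) => (z.1.2, z.2) :=
    measurable_fst.snd.prodMk measurable_snd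
  have h1 : Measurable fun z : SlotDis N j k × (Fin r → Fin k → Fin N → ℝ) =>
      ((2 : ℝ) ^ N)⁻¹ * Real.exp (slotH f z.1.1 σ) :=
    ((measurable_slotH hs σ).comp hd).exp.const_mul _
  have key : ∀ F : (Fin k → Fin N → ℝ) → (Fin r → Fin k → Fin N → ℝ) → ℝ,
      (Measurable fun q : (Fin k → Fin N → ℝ) × (Fin r → Fin k → Fin N → ℝ) => F q.1 q.2) →
      Measurable fun z : SlotDis N j k × (Fin r → Fin k → Fin N → ℝ) => F z.1.2 z.2 :=
    fun F h => h.comp hq
  have h2 := key (fun E η => fieldsW δ a ρ E σ η) (measurable_fieldsW δ a ρ σ)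
  exact h1.mul h2

lemma isProb_bern {ε : ℝ} (h0 : 0 ≤ ε) (h1 : ε ≤ 1) : IsProbabilityMeasure (bern ε) := by
  constructor
  simp only [bern, Measure.add_apply, Measure.smul_apply, measure_univ, smul_eq_mul, mul_one]
  rw [← ENNReal.ofReal_add h0 (by linarith)]
  simp

lemma integral_bern {ε : ℝ} (h0 : 0 ≤ ε) (h1 : ε ≤ 1) (h : Bool → ℝ) :
    ∫ b, h b ∂bern ε = ε * h true + (1 - ε) * h false := by
  rw [bern, integral_add_measure
    ((integrable_dirac (enorm_lt_top)).smul_measure ENNReal.ofReal_ne_top)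
    ((integrable_dirac (enorm_lt_top)).smul_measure ENNReal.ofReal_ne_top),
    integral_smul_measure, integral_smul_measure, integral_dirac, integral_dirac,
    ENNReal.toReal_ofReal h0, ENNReal.toReal_ofReal (by linarith)]
  simp

/-- Prepending one coordinate. -/
lemma mp_cons {X : Type} [MeasurableSpace X] (μ : Measure X) [IsProbabilityMeasure μ] (n : ℕ) :
    MeasurePreserving (fun p : X × (Fin n → X) => (Fin.cons p.1 p.2 : Fin (n + 1) → X))
      (μ.prod (Measure.pi fun _ => μ)) (Measure.pi fun _ => μ) := by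
  have h := (measurePreserving_piFinSuccAbove (fun _ : Fin (n + 1) => μ) 0).symm
  refine cast (congrArg (fun g => MeasurePreserving g _ _) (funext fun p => ?_)) h
  simp only [MeasurableEquiv.piFinSuccAbove_symm_apply, Fin.insertNthEquiv,
    Equiv.coe_fn_mk, Fin.insertNth_zero]
  rfl

/-- The law of the coins and the patterns. -/
abbrev patLaw (N j : ℕ) (ε : ℝ) : Measure ((Fin j → Bool) × (Fin j → Fin N → ℝ)) :=
  (Measure.pi fun _ : Fin j => bern ε).prod (Measure.pi fun _ : Fin j => gam (Fin N))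

lemma slotH_cons (f : ℝ → ℝ) (c : Bool) (g : Fin N → ℝ)
    (p : (Fin j → Bool) × (Fin j → Fin N → ℝ)) (σ : Cube N) :
    slotH f ((Fin.cons c p.1 : Fin (j + 1) → Bool), Fin.cons g p.2) σ =
      (if c then f (dot g (unitVec σ)) else 0) + slotH f p σ := by
  simp [slotH, Fin.sum_univ_succ]

variable {ε : ℝ}

/-- A bounded function of one more slot. -/
lemma integral_pat_succ (h0 : 0 ≤ ε) (h1 : ε ≤ 1)
    {F : (Fin (j + 1) → Bool) × (Fin (j + 1) → Fin N → ℝ) → ℝ} (hF : Measurable F) {K : ℝ}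
    (hb : ∀ p, |F p| ≤ K) :
    ∫ p, F p ∂patLaw N (j + 1) ε =
      ε * (∫ p, ∫ g, F (Fin.cons true p.1, Fin.cons g p.2) ∂gam (Fin N) ∂patLaw N j ε) +
      (1 - ε) * ∫ p, ∫ g, F (Fin.cons false p.1, Fin.cons g p.2) ∂gam (Fin N) ∂patLaw N j ε := by
  have := isProb_bern h0 h1
  set PC := Measure.pi fun _ : Fin j => bern ε
  set PG := Measure.pi fun _ : Fin j => gam (Fin N)
  have hc := mp_cons (bern ε) j
  have hg := mp_cons (gam (Fin N)) j
  have hmp := hc.prod hg
  let G : (Bool × (Fin j → Bool)) × ((Fin N → ℝ) × (Fin j → Fin N → ℝ)) → ℝ := fun z =>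
    F (Fin.cons z.1.1 z.1.2, Fin.cons z.2.1 z.2.2)
  have hGm : Measurable G := hF.comp hmp.measurable
  rw [← integral_mp hmp hF]
  show ∫ z, G z ∂((bern ε).prod PC).prod ((gam (Fin N)).prod PG) = _
  have hGi : Integrable G (((bern ε).prod PC).prod ((gam (Fin N)).prod PG)) :=
    integrable_bdd hGm fun z => hb _
  rw [integral_prod _ hGi]
  have e : ∀ x, ∫ y, G (x, y) ∂(gam (Fin N)).prod PG =
      ∫ q, ∫ g, G (x, (g, q)) ∂gam (Fin N) ∂PG := fun x =>
    integral_prod_symm _ (integrable_bdd (hGm.comp measurable_prodMk_left) fun _ => hb _)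
  have hHm : Measurable fun x => ∫ y, G (x, y) ∂(gam (Fin N)).prod PG :=
    (hGm.stronglyMeasurable.integral_prod_right').measurable
  have hHb : ∀ x, |∫ y, G (x, y) ∂(gam (Fin N)).prod PG| ≤ K := fun x => by
    simpa using norm_integral_le_of_norm_le_const (μ := (gam (Fin N)).prod PG)
      (f := fun y => G (x, y)) (Eventually.of_forall fun y => (Real.norm_eq_abs _).trans_le (hb _))
  rw [integral_prod _ (integrable_bdd hHm hHb), integral_bern h0 h1]
  have e2 : ∀ c : Bool, ∫ q, (∫ y, G ((c, q), y) ∂(gam (Fin N)).prod PG) ∂PC =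
      ∫ p, ∫ g, F (Fin.cons c p.1, Fin.cons g p.2) ∂gam (Fin N) ∂PC.prod PG := fun c => by
    simp only [e]
    refine (integral_prod (fun p : (Fin j → Bool) × (Fin j → Fin N → ℝ) =>
      ∫ g, F (Fin.cons c p.1, Fin.cons g p.2) ∂gam (Fin N)) ?_).symm
    refine integrable_bdd (C := K) ?_ fun p => ?_
    · exact ((hGm.comp (f := fun z : ((Fin j → Bool) × (Fin j → Fin N → ℝ)) × (Fin N → ℝ) =>
        ((c, z.1.1), (z.2, z.1.2))) ((measurable_const.prodMk measurable_fst.fst).prodMk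
          (measurable_snd.prodMk measurable_fst.snd))).stronglyMeasurable.integral_prod_right').measurable
    · simpa using norm_integral_le_of_norm_le_const (μ := gam (Fin N))
        (f := fun g => F (Fin.cons c p.1, Fin.cons g p.2))
        (Eventually.of_forall fun g => (Real.norm_eq_abs _).trans_le (hb _))
  rw [e2 true, e2 false]

end Vale.Agent.P166.NW
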