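import Vale.Agent.P166.NW.Base
import Vale.Agent.P157.Parisi.Perturb.Variance

/-!
Monotonicity of the free energy in the weights, and the cost of the perturbation.
-/

noncomputable section

open MeasureTheory ProbabilityTheory Filter
open scoped BigOperators Topology

namespace Vale.Agent.P166.NW

open Vale.Agent.P157 Vale.Agent.P157.Parisi Vale.Agent.P157.Parisi.Up
open Vale.Agent.P168 (genNested)
open Vale.Agent.P168.Cascade (Exps Bdd)
open Vale.Agent.P168.Upper (measurable_genNested genNested_bounds genNested_const_mul)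
open Vale.Agent.P168.Limit (logZ)
open Vale.Agent.P168.Limit.SelfAvg (field field_gap integrable_logZ_field abs_integral_sub_le)

variable {r N : ℕ} {β : Type} [MeasurableSpace β] {D : Type} [MeasurableSpace D]

/-- Nested means are monotone. -/
lemma genNested_mono (ν : Measure β) [IsProbabilityMeasure ν] : ∀ {r : ℕ} {m : Fin r → ℝ},
    (∀ i, 0 < m i) → ∀ {C : ℝ} {Y Y' : (Fin r → β) → ℝ}, Bdd C Y → Bdd C Y' →
    (∀ ω, Y ω ≤ Y' ω) → genNested ν m Y ≤ genNested ν m Y'
  | 0, _, _, _, _, _, _, _, h => h _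
  | r + 1, m, hm, C, Y, Y', hY, hY', h => by
    have hc : Measurable fun z : β × (Fin r → β) => (Fin.cons z.1 z.2 : Fin (r + 1) → β) :=
      measurable_pi_lambda _ fun i => by
        cases i using Fin.cases with
        | zero => simpa using measurable_fst
        | succ i =>
          simp only [Fin.cons_succ]
          exact (measurable_pi_apply i).comp measurable_snd
    set G : ((Fin (r + 1) → β) → ℝ) → β → ℝ := fun Z b =>
      genNested ν (Fin.tail m) fun ω => Z (Fin.cons b ω)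
    have hb : ∀ {Z : (Fin (r + 1) → β) → ℝ}, Bdd C Z → ∀ b,
        Bdd C fun ω : Fin r → β => Z (Fin.cons b ω) := fun hZ b =>
      ⟨hZ.pos, hZ.meas.comp (hc.comp (measurable_const.prodMk measurable_id)), fun _ => hZ.mem _⟩
    have hG : ∀ {Z : (Fin (r + 1) → β) → ℝ}, Bdd C Z → ∀ b, 0 ≤ G Z b ∧ G Z b ≤ C := fun hZ b => by
      have h' := genNested_bounds ν (Fin.tail m) (fun i => hm i.succ) _ (hb hZ b).meas
        (inv_pos.2 hZ.pos) (hb hZ b).mem
      exact ⟨(inv_pos.2 hZ.pos).le.trans h'.1, h'.2⟩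
    have hi : ∀ {Z : (Fin (r + 1) → β) → ℝ}, Bdd C Z → Integrable (fun b => G Z b ^ m 0) ν := by
      intro Z hZ
      refine Integrable.of_bound ((measurable_genNested ν (Fin.tail m)
        (fun b ω => Z (Fin.cons b ω)) (hZ.meas.comp hc)).pow_const _).aestronglyMeasurable
        (C ^ m 0) (ae_of_all _ fun b => ?_)
      rw [Real.norm_eq_abs, abs_of_nonneg (Real.rpow_nonneg (hG hZ b).1 _)]
      exact Real.rpow_le_rpow (hG hZ b).1 (hG hZ b).2 (hm 0).le
    show (∫ b, G Y b ^ m 0 ∂ν) ^ (1 / m 0) ≤ (∫ b, G Y' b ^ m 0 ∂ν) ^ (1 / m 0)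
    refine Real.rpow_le_rpow (integral_nonneg fun b => Real.rpow_nonneg (hG hY b).1 _) ?_
      (one_div_pos.2 (hm 0)).le
    exact integral_mono (hi hY) (hi hY') fun b => Real.rpow_le_rpow (hG hY b).1
      (genNested_mono ν (fun i => hm i.succ) (hb hY b) (hb hY' b) fun ω => h _) (hm 0).le

/-- Weights within a factor `e^c` have free energies within `c`. -/
lemma abs_Phi_sub_le (ν : Measure β) [IsProbabilityMeasure ν] {m : Fin r → ℝ} (hm : Exps m)
    {C C' c : ℝ} {w w' : Cube N → (Fin r → β) → ℝ} (hw : WBdd C w) (hw' : WBdd C' w')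
    (h₁ : ∀ σ η, w' σ η ≤ w σ η * Real.exp c) (h₂ : ∀ σ η, w σ η ≤ w' σ η * Real.exp c) :
    |Phi ν m w' - Phi ν m w| ≤ c := by
  have key : ∀ {C C' : ℝ} {w w' : Cube N → (Fin r → β) → ℝ}, WBdd C w → WBdd C' w' →
      (∀ σ η, w' σ η ≤ w σ η * Real.exp c) → Phi ν m w' ≤ c + Phi ν m w := by
    intro C C' w w' hw hw' h
    have hW := bdd_sum hw
    have hW' := bdd_sum hw'
    set B := Fintype.card (Cube N) * C
    set B' := Fintype.card (Cube N) * C'
    have hp := genNested_bounds ν m hm.pos _ hW.meas (inv_pos.2 hW.pos) hW.mem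
    have hp' := genNested_bounds ν m hm.pos _ hW'.meas (inv_pos.2 hW'.pos) hW'.mem
    have hS : Bdd (B * Real.exp |c|) fun η => Real.exp c * ∑ σ, w σ η := by
      refine ⟨mul_pos hW.pos (Real.exp_pos _), hW.meas.const_mul _, fun η => ⟨?_, ?_⟩⟩
      · rw [mul_inv, ← Real.exp_neg, mul_comm B⁻¹]
        exact mul_le_mul (Real.exp_le_exp.2 (neg_abs_le c)) (hW.mem η).1 (inv_pos.2 hW.pos).le
          (Real.exp_pos _).le
      · rw [mul_comm B]
        exact mul_le_mul (Real.exp_le_exp.2 (le_abs_self c)) (hW.mem η).2 (hW.gt_zero η).le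
          (Real.exp_pos _).le
    have hmono := genNested_mono ν hm.pos
      (bdd_mono (le_max_left B' (B * Real.exp |c|)) hW')
      (bdd_mono (le_max_right B' (B * Real.exp |c|)) hS) fun η => by
        rw [Finset.mul_sum]
        exact Finset.sum_le_sum fun σ _ => (h σ η).trans_eq (mul_comm _ _)
    rw [genNested_const_mul ν (Real.exp_pos c).le m hm.pos _ fun η => (hW.gt_zero η).le] at hmono
    have := Real.log_le_log ((inv_pos.2 hW'.pos).trans_le hp'.1) hmono
    rw [Real.log_mul (Real.exp_pos c).ne' ((inv_pos.2 hW.pos).trans_le hp.1).ne',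
      Real.log_exp] at this
    exact this
  rw [abs_le]
  constructor <;> linarith [key hw hw' h₁, key hw' hw h₂]

lemma wbdd_mul_exp {C M : ℝ} {w : Cube N → (Fin r → β) → ℝ} (hw : WBdd C w) {h : Cube N → ℝ}
    (hh : ∀ σ, |h σ| ≤ M) : WBdd (C * Real.exp M) fun σ η => w σ η * Real.exp (h σ) := fun σ =>
  ⟨mul_pos (hw σ).pos (Real.exp_pos _), (hw σ).meas.mul_const _, fun η => ⟨by
    rw [mul_inv, ← Real.exp_neg]
    exact mul_le_mul ((hw σ).mem η).1 (Real.exp_le_exp.2 (abs_le.1 (hh σ)).1) (Real.exp_pos _).le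
      ((hw σ).gt_zero η).le,
    mul_le_mul ((hw σ).mem η).2 (Real.exp_le_exp.2 (abs_le.1 (hh σ)).2) (Real.exp_pos _).le
      (hw σ).pos.le⟩⟩

/-! ### The perturbation -/

/-- A signed copy of the perturbation, amplified by `l`. -/
def signFeat {L : ℕ} (l s : ℝ) (x : Fin L → ℝ) (p : Cube N × Bool) (c : PertIdx N L) : ℝ :=
  (if p.2 then l else -l) * (s * x c.1 * Perturb.feat c p.1)

/-- A majorant of the perturbation, uniform in the configuration. -/
def pertM {L : ℕ} (l s : ℝ) (x : Fin L → ℝ) (J : PertIdx N L → ℝ) : ℝ :=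
  logZ (fun p : Cube N × Bool => 0 + field (signFeat l s x) J p) / l

lemma abs_pertH_le_pertM {L : ℕ} {l : ℝ} (hl : 0 < l) (s : ℝ) (x : Fin L → ℝ)
    (J : PertIdx N L → ℝ) (σ : Cube N) : |pertH s x J σ| ≤ pertM l s x J := by
  have h : ∀ b : Bool, field (signFeat l s x) J (σ, b) =
      (if b then l else -l) * pertH s x J σ := fun b => by
    rw [Perturb.pertH_eq_field, field, field, Finset.mul_sum]
    exact Finset.sum_congr rfl fun c _ => by simp only [signFeat]; ring
  have key : ∀ b : Bool, field (signFeat l s x) J (σ, b) ≤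
      logZ (fun p : Cube N × Bool => 0 + field (signFeat l s x) J p) := fun b => by
    refine (Real.le_log_iff_exp_le (Finset.sum_pos (fun _ _ => Real.exp_pos _)
      Finset.univ_nonempty)).2 ?_
    refine le_trans ?_ (Finset.single_le_sum (fun p _ => (Real.exp_pos _).le)
      (Finset.mem_univ (σ, b)))
    simp
  have h1 := key true
  have h2 := key false
  rw [h] at h1 h2
  simp only [if_true] at h1
  simp only [Bool.false_eq_true, if_false] at h2
  rw [pertM, le_div_iff₀ hl, abs_eq_max_neg, max_mul_of_nonneg _ _ hl.le, max_le_iff]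
  constructor <;> linarith

/-- The allowance for the perturbation. -/
def pertErr (N : ℕ) : ℝ :=
  ((N : ℝ) + 1) / (N : ℝ) ^ (1 / 8 : ℝ) + 3 / 2 * ((N : ℝ) ^ (1 / 8 : ℝ) * scale N ^ 2)

lemma pertM_mean {L : ℕ} (hN : 0 < N) {x : Fin L → ℝ} (hx : ∀ i, |x i| ≤ 3) :
    Integrable (pertM ((N : ℝ) ^ (1 / 8 : ℝ)) (scale N) x) (gam (PertIdx N L)) ∧
      ∫ J, pertM ((N : ℝ) ^ (1 / 8 : ℝ)) (scale N) x J ∂gam (PertIdx N L) ≤ pertErr N := by
  have : NeZero N := ⟨hN.ne'⟩
  set l : ℝ := (N : ℝ) ^ (1 / 8 : ℝ)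
  have hl : 0 < l := Real.rpow_pos_of_pos (by exact_mod_cast hN) _
  set φ : Cube N × Bool → PertIdx N L → ℝ := signFeat l (scale N) x
  have hv : ∀ p, ∑ c, φ p c ^ 2 ≤ 3 * (l ^ 2 * scale N ^ 2) := fun p => by
    have hl2 : (if p.2 then l else -l) ^ 2 = l ^ 2 := by split_ifs <;> ring
    simp only [φ, signFeat, mul_pow, hl2]
    rw [Fintype.sum_sigma]
    have e : ∀ P : Fin L, ∑ v : Fin (P.val + 1) → Fin N,
        l ^ 2 * (scale N ^ 2 * x P ^ 2 * Perturb.feat ⟨P, v⟩ p.1 ^ 2) =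
          l ^ 2 * scale N ^ 2 * (x P ^ 2 * (1 / 4) ^ (P.val + 1)) := fun P => by
      simp only [← Finset.mul_sum, sq (Perturb.feat _ _), Perturb.sum_feat_mul,
        Perturb.overlap_self, one_pow, mul_one]
      ring
    simp only [e, ← Finset.mul_sum]
    rw [mul_comm (3 : ℝ)]
    refine mul_le_mul_of_nonneg_left ?_ (by positivity)
    calc ∑ P : Fin L, x P ^ 2 * (1 / 4 : ℝ) ^ (P.val + 1)
        ≤ ∑ P : Fin L, 9 * (1 / 4 : ℝ) ^ (P.val + 1) := Finset.sum_le_sum fun P _ => by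
          refine mul_le_mul_of_nonneg_right ?_ (by positivity)
          rw [← sq_abs]
          nlinarith [abs_nonneg (x P), hx P]
      _ ≤ 3 := by
          rw [← Finset.mul_sum]
          linarith [Perturb.sum_quarter_le L]
  have h := (field_gap (fun _ : Cube N × Bool => (0 : ℝ)) φ hv).2
  have hi := integrable_logZ_field (fun _ : Cube N × Bool => (0 : ℝ)) φ
  have hc : logZ (fun _ : Cube N × Bool => (0 : ℝ)) ≤ N + 1 := by
    have h2 : Real.log (2 : ℝ) ≤ 1 := by
      linarith [Real.log_le_sub_one_of_pos (two_pos : (0 : ℝ) < 2)]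
    simp only [logZ, Real.exp_zero, Finset.sum_const, Finset.card_univ, Fintype.card_prod,
      Fintype.card_fun, Fintype.card_fin, Fintype.card_bool, nsmul_eq_mul, mul_one, ← pow_succ,
      Nat.cast_pow, Nat.cast_ofNat, Real.log_pow, Nat.cast_add, Nat.cast_one]
    exact mul_le_of_le_one_right (by positivity) h2
  refine ⟨hi.div_const l, ?_⟩
  have e : ∫ J, pertM l (scale N) x J ∂gam (PertIdx N L) =
      (∫ J, logZ (fun p : Cube N × Bool => 0 + field φ J p) ∂gam (PertIdx N L)) / l :=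
    integral_div l _
  rw [e, div_le_iff₀ hl, pertErr, add_mul, div_mul_cancel₀ _ hl.ne']
  refine le_trans h ?_
  have : 3 * (l ^ 2 * scale N ^ 2) / 2 = 3 / 2 * (l * scale N ^ 2) * l := by ring
  linarith

lemma tendsto_pertErr : Tendsto (fun N : ℕ => pertErr N / N) atTop (𝓝 0) := by
  have hr := (tendsto_rpow_neg_atTop (y := (1 / 8 : ℝ)) (by norm_num)).comp
    (tendsto_natCast_atTop_atTop (R := ℝ))
  have h1 : Tendsto (fun N : ℕ => (1 + 1 / (N : ℝ)) * (N : ℝ) ^ (-(1 / 8) : ℝ) +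
      3 / 2 * (N : ℝ) ^ (-(1 / 8) : ℝ)) atTop (𝓝 0) := by
    simpa using (((tendsto_const_nhds (x := (1 : ℝ))).add tendsto_one_div_atTop_nhds_zero_nat).mul
      hr).add (hr.const_mul (3 / 2))
  refine h1.congr' ((eventually_gt_atTop 0).mono fun N hN => ?_)
  have h0 : (0 : ℝ) < N := by exact_mod_cast hN
  have e2 : (N : ℝ) ^ (1 / 8 : ℝ) * scale N ^ 2 = N * (N : ℝ) ^ (-(1 / 8) : ℝ) := by
    rw [scale, ← Real.rpow_natCast ((N : ℝ) ^ (3 / 8 : ℝ)) 2, ← Real.rpow_mul h0.le,
      ← Real.rpow_add h0]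
    conv_rhs => rw [← Real.rpow_one_add' h0.le (by norm_num)]
    norm_num
  show _ = pertErr N / N
  rw [pertErr, e2, Real.rpow_neg h0.le]
  field_simp

lemma measW_pertW {L : ℕ} {w : D → Cube N → (Fin r → β) → ℝ} (hw : MeasW w) (s : ℝ) :
    MeasW fun z : (Fin L → ℝ) × (D × (PertIdx N L → ℝ)) => pertW w s z.1 z.2 := fun σ => by
  have h1 : Measurable fun z : ((Fin L → ℝ) × (D × (PertIdx N L → ℝ))) × (Fin r → β) =>
      w z.1.2.1 σ z.2 := (hw σ).comp (measurable_fst.snd.fst.prodMk measurable_snd)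
  have h2 : Measurable fun z : ((Fin L → ℝ) × (D × (PertIdx N L → ℝ))) × (Fin r → β) =>
      pertH s z.1.1 z.1.2.2 σ :=
    by unfold pertH; fun_prop
  exact h1.mul h2.exp

lemma measW_pertW_right {L : ℕ} {w : D → Cube N → (Fin r → β) → ℝ} (hw : MeasW w) (s : ℝ)
    (x : Fin L → ℝ) : MeasW fun e : D × (PertIdx N L → ℝ) => pertW w s x e := fun σ =>
  (measW_pertW hw s σ).comp
    (f := fun z : (D × (PertIdx N L → ℝ)) × (Fin r → β) => ((x, z.1), z.2))
    ((measurable_const.prodMk measurable_fst).prodMk measurable_snd)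

variable {ν : Measure β} [IsProbabilityMeasure ν] {m : Fin r → ℝ} {C : ℝ}
  {w : D → Cube N → (Fin r → β) → ℝ} {x : Fin N → ℝ}

omit [MeasurableSpace D] in
lemma wbdd_pertW (hN : 0 < N) (hw : ∀ d, WBdd C (w d)) (x : Fin N → ℝ)
    (e : D × (PertIdx N N → ℝ)) :
    WBdd (C * Real.exp (pertM ((N : ℝ) ^ (1 / 8 : ℝ)) (scale N) x e.2)) (pertW w (scale N) x e) :=
  wbdd_mul_exp (hw e.1) fun σ =>
    abs_pertH_le_pertM (Real.rpow_pos_of_pos (by exact_mod_cast hN) _) _ _ _ σ

omit [MeasurableSpace D] in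
lemma abs_Phi_pertW_sub_le (hm : Exps m) (hN : 0 < N) (hw : ∀ d, WBdd C (w d)) (x : Fin N → ℝ)
    (e : D × (PertIdx N N → ℝ)) :
    |Phi ν m (pertW w (scale N) x e) - Phi ν m (w e.1)| ≤
      pertM ((N : ℝ) ^ (1 / 8 : ℝ)) (scale N) x e.2 := by
  have hl : (0 : ℝ) < (N : ℝ) ^ (1 / 8 : ℝ) := Real.rpow_pos_of_pos (by exact_mod_cast hN) _
  have hp := fun σ => abs_le.1 (abs_pertH_le_pertM hl (scale N) x e.2 σ)
  refine abs_Phi_sub_le ν hm (hw e.1) (wbdd_pertW hN hw x e)
    (fun σ η => mul_le_mul_of_nonneg_left (Real.exp_le_exp.2 (hp σ).2) ((hw e.1 σ).gt_zero η).le)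
    fun σ η => ?_
  rw [pertW, mul_assoc, ← Real.exp_add]
  exact le_mul_of_one_le_right ((hw e.1 σ).gt_zero η).le (Real.one_le_exp (by linarith [(hp σ).1]))

omit [MeasurableSpace D] in
lemma abs_pertH_scale_le (hN : 0 < N) (x : Fin N → ℝ) (J : PertIdx N N → ℝ) (σ : Cube N) :
    |pertH (scale N) x J σ| ≤ pertM ((N : ℝ) ^ (1 / 8 : ℝ)) (scale N) x J :=
  abs_pertH_le_pertM (Real.rpow_pos_of_pos (by exact_mod_cast hN) _) _ _ _ σ

lemma integrable_Phi_pertW (hm : Exps m) (hN : 0 < N) (hmw : MeasW w) (hw : ∀ d, WBdd C (w d))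
    (μ : Measure D) [IsProbabilityMeasure μ] (hx : ∀ i, |x i| ≤ 3) :
    Integrable (fun e => Phi ν m (pertW w (scale N) x e)) (famLaw μ N N) := by
  refine ((integrable_const (|Real.log (Fintype.card (Cube N) * C)|)).add
    ((pertM_mean hN hx).1.comp_snd μ)).mono'
      (measurable_Phi ν m (measW_pertW_right hmw _ x)).aestronglyMeasurable
      (ae_of_all _ fun e => ?_)
  simp only [Pi.add_apply, Real.norm_eq_abs]
  linarith [abs_Phi_pertW_sub_le (ν := ν) hm hN hw x e, abs_Phi_le' ν hm (hw e.1),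
    abs_sub_abs_le_abs_sub (Phi ν m (pertW w (scale N) x e)) (Phi ν m (w e.1))]

lemma integrable_Phi_pertW_sec (hm : Exps m) (hN : 0 < N) (hmw : MeasW w)
    (hw : ∀ d, WBdd C (w d)) (hx : ∀ i, |x i| ≤ 3) (d : D) :
    Integrable (fun J => Phi ν m (pertW w (scale N) x (d, J))) (gam (PertIdx N N)) := by
  refine ((integrable_const (|Real.log (Fintype.card (Cube N) * C)|)).add (pertM_mean hN hx).1).mono'
    ((measurable_Phi ν m (measW_pertW_right hmw _ x)).comp
      (measurable_const.prodMk measurable_id)).aestronglyMeasurable (ae_of_all _ fun J => ?_)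
  simp only [Pi.add_apply, Real.norm_eq_abs]
  linarith [abs_Phi_pertW_sub_le (ν := ν) hm hN hw x (d, J), abs_Phi_le' ν hm (hw d),
    abs_sub_abs_le_abs_sub (Phi ν m (pertW w (scale N) x (d, J))) (Phi ν m (w d))]

/-- The perturbation costs `o(N)`. -/
lemma abs_pertPhi_sub_le (hm : Exps m) (hN : 0 < N) (hmw : MeasW w) (hw : ∀ d, WBdd C (w d))
    (hx : ∀ i, |x i| ≤ 3) (d : D) :
    |pertPhi ν m w (scale N) x d - Phi ν m (w d)| ≤ pertErr N := by
  have hi := integrable_Phi_pertW_sec (ν := ν) hm hN hmw hw hx d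
  have e : pertPhi ν m w (scale N) x d - Phi ν m (w d) =
      ∫ J, (Phi ν m (pertW w (scale N) x (d, J)) - Phi ν m (w d)) ∂gam (PertIdx N N) := by
    rw [integral_sub hi (integrable_const _)]
    simp [pertPhi]
  rw [e, ← Real.norm_eq_abs]
  refine (norm_integral_le_integral_norm _).trans
    ((integral_mono (hi.sub (integrable_const _)).norm (pertM_mean hN hx).1 fun J => ?_).trans
      (pertM_mean hN hx).2)
  exact abs_Phi_pertW_sub_le hm hN hw x (d, J)

lemma measurable_pertPhi (hmw : MeasW w) (x : Fin N → ℝ) :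
    Measurable fun d => pertPhi ν m w (scale N) x d :=
  ((measurable_Phi ν m (measW_pertW_right hmw _ x)).stronglyMeasurable.integral_prod_right'
    (ν := gam (PertIdx N N))).measurable

lemma abs_pertPhi_le (hm : Exps m) (hN : 0 < N) (hmw : MeasW w) (hw : ∀ d, WBdd C (w d))
    (hx : ∀ i, |x i| ≤ 3) (d : D) :
    |pertPhi ν m w (scale N) x d| ≤ |Real.log (Fintype.card (Cube N) * C)| + pertErr N := by
  linarith [abs_pertPhi_sub_le (ν := ν) hm hN hmw hw hx d, abs_Phi_le' ν hm (hw d),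
    abs_sub_abs_le_abs_sub (pertPhi ν m w (scale N) x d) (Phi ν m (w d))]

/-- Disorders with log-weights within `c` have averaged free energies within `c`. -/
lemma abs_pertPhi_diff_le (hm : Exps m) (hN : 0 < N) (hmw : MeasW w) (hw : ∀ d, WBdd C (w d))
    (hx : ∀ i, |x i| ≤ 3) {d d' : D} {c : ℝ} (h₁ : ∀ σ η, w d' σ η ≤ w d σ η * Real.exp c)
    (h₂ : ∀ σ η, w d σ η ≤ w d' σ η * Real.exp c) :
    |pertPhi ν m w (scale N) x d - pertPhi ν m w (scale N) x d'| ≤ c := by
  refine abs_integral_sub_le (integrable_Phi_pertW_sec hm hN hmw hw hx d)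
    (integrable_Phi_pertW_sec hm hN hmw hw hx d') fun J => ?_
  rw [abs_sub_comm]
  refine abs_Phi_sub_le ν hm (wbdd_pertW hN hw x (d, J)) (wbdd_pertW hN hw x (d', J))
    (fun σ η => ?_) fun σ η => ?_
  · simp only [pertW]
    rw [mul_right_comm]
    exact mul_le_mul_of_nonneg_right (h₁ σ η) (Real.exp_pos _).le
  · simp only [pertW]
    rw [mul_right_comm]
    exact mul_le_mul_of_nonneg_right (h₂ σ η) (Real.exp_pos _).le

end Vale.Agent.P166.NW
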